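import Vale.Agent.P070.H443.Model

/-! Base data containing a copy of a given algebra of operators: the C*-algebra generated by the
isometries `x ↦ e ⊗ x`, the given algebra and an anticommuting sequence. -/

set_option linter.all false

namespace Vale.Agent.P070.H443

open scoped InnerProductSpace ComplexConjugate
open Filter Topology

universe u v

section pos

variable {H : Type u} {K : Type v}
  [NormedAddCommGroup H] [InnerProductSpace ℂ H] [CompleteSpace H]
  [NormedAddCommGroup K] [InnerProductSpace ℂ K] [CompleteSpace K]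
  {c : ℕ → Op H}

theorem kterm_norm_le (hc : ∀ n, ‖c n‖ ≤ 1) (n : ℕ) :
    ‖((1 / 2 : ℂ) ^ (n + 1)) • (star (c n) * c n)‖ ≤ (1 / 2 : ℝ) ^ (n + 1) := by
  rw [norm_smul, norm_pow]
  have h1 : ‖(1 / 2 : ℂ)‖ = 1 / 2 := by simp
  rw [h1]
  have h2 : ‖star (c n) * c n‖ ≤ 1 := by
    refine (norm_mul_le _ _).trans ?_
    rw [norm_star]
    exact mul_le_one₀ (hc n) (norm_nonneg _) (hc n)
  calc (1 / 2 : ℝ) ^ (n + 1) * ‖star (c n) * c n‖ ≤ (1 / 2 : ℝ) ^ (n + 1) * 1 := by gcongr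
    _ = _ := mul_one _

theorem k_summable (hc : ∀ n, ‖c n‖ ≤ 1) :
    Summable fun n => ((1 / 2 : ℂ) ^ (n + 1)) • (star (c n) * c n) :=
  Summable.of_norm_bounded (g := fun n => (1 / 2 : ℝ) ^ (n + 1))
    ((summable_nat_add_iff 1).mpr summable_geometric_two) (kterm_norm_le hc)

theorem k_hasSum (hc : ∀ n, ‖c n‖ ≤ 1) :
    HasSum (fun n => ((1 / 2 : ℂ) ^ (n + 1)) • (star (c n) * c n)) (kk c) :=
  (k_summable hc).hasSum

theorem k_mem (hc : ∀ n, ‖c n‖ ≤ 1) {A : StarSubalgebra ℂ (Op H)} (hA : IsClosed (A : Set (Op H)))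
    (h : ∀ n, c n ∈ A) : kk c ∈ A := by
  refine hA.mem_of_tendsto (k_hasSum hc) (Eventually.of_forall fun s => ?_)
  exact sum_mem fun n _ => A.smul_mem (mul_mem (star_mem (h n)) (h n)) _

theorem k_hasSum_inner (hc : ∀ n, ‖c n‖ ≤ 1) (P : Op H →⋆ₐ[ℂ] Op K) (z : K) :
    HasSum (fun n => (1 / 2 : ℝ) ^ (n + 1) * ‖P (c n) z‖ ^ 2) (⟪z, P (kk c) z⟫_ℂ).re := by
  have h1 : HasSum (fun n => (⟪z, P (((1 / 2 : ℂ) ^ (n + 1)) • (star (c n) * c n)) z⟫_ℂ).re)
      (⟪z, P (kk c) z⟫_ℂ).re := by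
    let L : Op H →+ ℝ :=
      { toFun := fun x => (⟪z, P x z⟫_ℂ).re
        map_zero' := by simp
        map_add' := fun x y => by simp }
    have hL : Continuous L := by
      have : Continuous fun x : Op H => P x z :=
        (ContinuousLinearMap.apply ℂ K z).continuous.comp (continuous_P P)
      exact Complex.continuous_re.comp (continuous_const.inner this)
    exact (k_hasSum hc).map L hL
  suffices h0 : (fun n => (1 / 2 : ℝ) ^ (n + 1) * ‖P (c n) z‖ ^ 2) =
      fun n => (⟪z, P (((1 / 2 : ℂ) ^ (n + 1)) • (star (c n) * c n)) z⟫_ℂ).re by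
    rw [h0]; exact h1
  funext n
  symm
  rw [map_smul, smul_apply, map_mul_apply, inner_smul_right, inner_star_apply,
    inner_self_eq_norm_sq_to_K]
  have : ((1 / 2 : ℂ) ^ (n + 1) * ((‖P (c n) z‖ : ℂ)) ^ 2) =
      (((1 / 2 : ℝ) ^ (n + 1) * ‖P (c n) z‖ ^ 2 : ℝ) : ℂ) := by push_cast; ring
  have h2 := congrArg Complex.re this
  rw [Complex.ofReal_re] at h2
  exact h2

theorem k_ker_iff (hc : ∀ n, ‖c n‖ ≤ 1) (P : Op H →⋆ₐ[ℂ] Op K) (z : K) :
    P (kk c) z = 0 ↔ ∀ i, P (c i) z = 0 := by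
  constructor
  · intro h i
    have h1 := k_hasSum_inner hc P z
    rw [h, inner_zero_right, Complex.zero_re] at h1
    have h2 := (hasSum_zero_iff_of_nonneg (fun n => by positivity)).mp h1
    have h3 := congrFun h2 i
    simp only [Pi.zero_apply, mul_eq_zero, pow_eq_zero_iff', norm_eq_zero] at h3
    rcases h3 with h3 | h3
    · norm_num at h3
    · exact h3.1
  · intro h
    have h1 : HasSum (fun n => P (((1 / 2 : ℂ) ^ (n + 1)) • (star (c n) * c n)) z)
        (P (kk c) z) := by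
      let L : Op H →+ K :=
        { toFun := fun x => P x z
          map_zero' := by simp
          map_add' := fun x y => by simp }
      have hL : Continuous L :=
        (ContinuousLinearMap.apply ℂ K z).continuous.comp (continuous_P P)
      exact (k_hasSum hc).map L hL
    refine h1.unique ?_
    have h0 : (fun n => P (((1 / 2 : ℂ) ^ (n + 1)) • (star (c n) * c n)) z) = fun _ => 0 := by
      funext n
      rw [map_smul, smul_apply, map_mul_apply, h n]
      simp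
    rw [h0]
    exact hasSum_zero

theorem k_selfAdjoint (hc : ∀ n, ‖c n‖ ≤ 1) : IsSelfAdjoint (kk c) := by
  have h1 := (k_hasSum hc).star
  have h2 : (fun n => star (((1 / 2 : ℂ) ^ (n + 1)) • (star (c n) * c n))) =
      fun n => ((1 / 2 : ℂ) ^ (n + 1)) • (star (c n) * c n) := by
    funext n
    rw [star_smul, star_mul, star_star, star_pow]
    simp
  rw [h2] at h1
  exact h1.unique (k_hasSum hc)

theorem k_nonneg (hc : ∀ n, ‖c n‖ ≤ 1) : 0 ≤ kk c := by
  rw [ContinuousLinearMap.nonneg_iff_isPositive]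
  refine ⟨ContinuousLinearMap.isSelfAdjoint_iff_isSymmetric.mp (k_selfAdjoint hc), fun z => ?_⟩
  have h1 := k_hasSum_inner hc (StarAlgHom.id ℂ (Op H)) z
  have h2 : 0 ≤ (⟪z, kk c z⟫_ℂ).re := h1.nonneg fun n => by positivity
  rw [ContinuousLinearMap.reApplyInnerSelf_apply, inner_re_symm]
  exact h2

theorem k_tail (hc : ∀ n, ‖c n‖ ≤ 1) (m : ℕ) :
    ‖kk c - ∑ n ∈ Finset.range m, ((1 / 2 : ℂ) ^ (n + 1)) • (star (c n) * c n)‖ ≤
      (1 / 2 : ℝ) ^ m := by
  have h1 := (k_summable hc).sum_add_tsum_nat_add m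
  have h2 : kk c - ∑ n ∈ Finset.range m, ((1 / 2 : ℂ) ^ (n + 1)) • (star (c n) * c n) =
      ∑' n, ((1 / 2 : ℂ) ^ (n + m + 1)) • (star (c (n + m)) * c (n + m)) := by
    rw [kk, ← h1]
    abel
  rw [h2]
  have h3 : HasSum (fun n => (1 / 2 : ℝ) ^ (n + m + 1)) ((1 / 2 : ℝ) ^ m) := by
    have h4 := (hasSum_geometric_two' (1 : ℝ)).mul_left ((1 / 2 : ℝ) ^ m)
    have h5 : (fun n : ℕ => (1 / 2 : ℝ) ^ m * (1 / 2 / 2 ^ n)) =
        fun n => (1 / 2 : ℝ) ^ (n + m + 1) := by
      funext n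
      rw [pow_succ, pow_add, one_div_pow, one_div_pow]
      ring
    rw [h5, mul_one] at h4
    exact h4
  exact tsum_of_norm_bounded h3 fun n => kterm_norm_le hc (n + m)

theorem k_norm_le (hc : ∀ n, ‖c n‖ ≤ 1) : ‖kk c‖ ≤ 1 := by
  have := k_tail hc 0
  simpa using this

end pos

variable {E : Type*} {F : Type*} {H : Type u} {K : Type v}
  [NormedAddCommGroup E] [InnerProductSpace ℂ E] [CompleteSpace E]
  [NormedAddCommGroup F] [InnerProductSpace ℂ F] [CompleteSpace F]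
  [NormedAddCommGroup H] [InnerProductSpace ℂ H] [CompleteSpace H]
  [NormedAddCommGroup K] [InnerProductSpace ℂ K] [CompleteSpace K]

/-- The relations between the generators. -/
structure Sys (T : E → Op F) (Θ : Op E →⋆ₐ[ℂ] Op F) (ψ : Op F →⋆ₐ[ℂ] Op H) (a : ℕ → Op H)
    (U : Op H) : Prop where
  rel : Rel a U
  inner : ∀ f e, star (T f) * T e = ⟪f, e⟫_ℂ • (1 : Op F)
  act : ∀ d e, Θ d * T e = T (d e)
  comm : ∀ x i, ψ x * a i = a i * ψ x
  commU : ∀ x, ψ x * U = U * ψ x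

section words

variable (T : E → Op F) (e : ℕ → E)

/-- words -/
noncomputable def tw (γ : List E) : Op F := (γ.map T).prod

theorem tw_nil : tw T [] = 1 := rfl

theorem tw_cons (f : E) (γ : List E) : tw T (f :: γ) = T f * tw T γ := by simp [tw]

/-- `T (e j) * ⋯ * T (e (j + m - 1))` -/
noncomputable def seg : ℕ → ℕ → Op F
  | _, 0 => 1
  | j, m + 1 => T (e j) * seg (j + 1) m

theorem seg_zero (j : ℕ) : seg T e j 0 = 1 := rfl

theorem seg_succ (j m : ℕ) : seg T e j (m + 1) = T (e j) * seg T e (j + 1) m := rfl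

theorem seg_add (j m k : ℕ) : seg T e j (m + k) = seg T e j m * seg T e (j + m) k := by
  induction m generalizing j with
  | zero => rw [seg_zero, one_mul, Nat.zero_add, Nat.add_zero]
  | succ m ih =>
    rw [Nat.succ_add, seg_succ, seg_succ, ih, mul_assoc]
    congr 3
    omega

theorem seg_pos {j n : ℕ} (h : j < n) :
    seg T e j (n - j) = T (e j) * seg T e (j + 1) (n - (j + 1)) := by
  obtain ⟨m, hm⟩ : ∃ m, n - j = m + 1 := ⟨n - j - 1, by omega⟩
  have h2 : n - (j + 1) = m := by omega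
  rw [hm, h2, seg_succ]

variable {T e} (hin : ∀ f e, star (T f) * T e = ⟪f, e⟫_ℂ • (1 : Op F)) (he : Orthonormal ℂ e)
include hin he

theorem star_seg_mul (j m : ℕ) : star (seg T e j m) * seg T e j m = 1 := by
  induction m generalizing j with
  | zero => rw [seg_zero, star_one, one_mul]
  | succ m ih =>
    rw [seg_succ, star_mul, mul_assoc, ← mul_assoc (star (T (e j))), hin,
      orthonormal_iff_ite.1 he, if_pos rfl, one_smul, one_mul, ih]

theorem word_scalar (γ : List E) (i j : ℕ) : ∃ c : ℂ, ∀ᶠ n : ℕ in atTop,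
    star (seg T e i (n - i)) * (tw T γ * seg T e j (n - j)) = c • (1 : Op F) := by
  induction γ generalizing i with
  | nil =>
    by_cases hij : i = j
    · subst hij
      refine ⟨1, Eventually.of_forall fun n => ?_⟩
      rw [tw_nil, one_mul, one_smul, star_seg_mul hin he]
    · refine ⟨0, ?_⟩
      filter_upwards [eventually_gt_atTop i, eventually_gt_atTop j] with n hi hj
      rw [tw_nil, one_mul, seg_pos T e hi, seg_pos T e hj, star_mul, mul_assoc,
        ← mul_assoc (star (T (e i))), hin, orthonormal_iff_ite.1 he, if_neg hij, zero_smul,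
        zero_mul, mul_zero]
  | cons f γ ih =>
    obtain ⟨c, hc⟩ := ih (i + 1)
    refine ⟨⟪e i, f⟫_ℂ * c, ?_⟩
    filter_upwards [eventually_gt_atTop i, hc] with n hi hn
    rw [tw_cons, seg_pos T e hi, star_mul, mul_assoc, mul_assoc,
      ← mul_assoc (star (T (e i))), hin, smul_mul_assoc, one_mul, mul_smul_comm, hn, smul_smul]

end words

section asy

variable {T : E → Op F} {Θ : Op E →⋆ₐ[ℂ] Op F} {ψ : Op F →⋆ₐ[ℂ] Op H} {a : ℕ → Op H} {U : Op H}

variable (T ψ a) in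
/-- basic sequences -/
noncomputable def bas (e : ℕ → E) (s : Op H) (γ : List E) (j : ℕ) : ℕ → Op H :=
  fun n => s * ψ (tw T γ * seg T e j (n - j))

variable (T ψ a) in
/-- the span of the basic sequences -/
noncomputable def Sp (e : ℕ → E) : Submodule ℂ (ℕ → Op H) :=
  Submodule.span ℂ {w | ∃ s ∈ StarAlgebra.adjoin ℂ (Set.range a), ∃ γ j, w = bas T ψ e s γ j}

variable (T ψ a) in
/-- left multiplication by `x` preserves the span, asymptotically -/
def Asy (e : ℕ → E) (x : Op H) : Prop :=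
  ∀ w ∈ Sp T ψ a e, ∃ w' ∈ Sp T ψ a e, ∀ᶠ n : ℕ in atTop, x * w n = w' n

variable {e : ℕ → E}

theorem bas_mem {s : Op H} (hs : s ∈ StarAlgebra.adjoin ℂ (Set.range a)) (γ : List E) (j : ℕ) :
    bas T ψ e s γ j ∈ Sp T ψ a e := Submodule.subset_span ⟨s, hs, γ, j, rfl⟩

theorem asy_of {x : Op H} (h : ∀ s ∈ StarAlgebra.adjoin ℂ (Set.range a), ∀ γ j,
    ∃ w' ∈ Sp T ψ a e, ∀ᶠ n : ℕ in atTop, x * bas T ψ e s γ j n = w' n) : Asy T ψ a e x := by
  intro w hw
  induction hw using Submodule.span_induction with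
  | mem w hw =>
    obtain ⟨s, hs, γ, j, rfl⟩ := hw
    exact h s hs γ j
  | zero => exact ⟨0, zero_mem _, Eventually.of_forall fun n => mul_zero _⟩
  | add w1 w2 _ _ h1 h2 =>
    obtain ⟨w1', m1, e1⟩ := h1
    obtain ⟨w2', m2, e2⟩ := h2
    refine ⟨w1' + w2', add_mem m1 m2, ?_⟩
    filter_upwards [e1, e2] with n a1 a2
    rw [Pi.add_apply, Pi.add_apply, mul_add, a1, a2]
  | smul c w _ h1 =>
    obtain ⟨w1', m1, e1⟩ := h1
    refine ⟨c • w1', Submodule.smul_mem _ _ m1, ?_⟩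
    filter_upwards [e1] with n a1
    rw [Pi.smul_apply, Pi.smul_apply, mul_smul_comm, a1]

theorem Asy.add {x y : Op H} (hx : Asy T ψ a e x) (hy : Asy T ψ a e y) :
    Asy T ψ a e (x + y) := by
  intro w hw
  obtain ⟨w1, m1, e1⟩ := hx w hw
  obtain ⟨w2, m2, e2⟩ := hy w hw
  refine ⟨w1 + w2, add_mem m1 m2, ?_⟩
  filter_upwards [e1, e2] with n a1 a2
  rw [Pi.add_apply, add_mul, a1, a2]

theorem Asy.mul {x y : Op H} (hx : Asy T ψ a e x) (hy : Asy T ψ a e y) :
    Asy T ψ a e (x * y) := by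
  intro w hw
  obtain ⟨w1, m1, e1⟩ := hy w hw
  obtain ⟨w2, m2, e2⟩ := hx w1 m1
  refine ⟨w2, m2, ?_⟩
  filter_upwards [e1, e2] with n a1 a2
  rw [mul_assoc, a1, a2]

theorem Asy.algebraMap (c : ℂ) : Asy T ψ a e (algebraMap ℂ (Op H) c) := by
  intro w hw
  refine ⟨c • w, Submodule.smul_mem _ _ hw, Eventually.of_forall fun n => ?_⟩
  rw [Pi.smul_apply, Algebra.smul_def]

namespace Sys

variable (S : Sys T Θ ψ a U)
include S

theorem comm_star (x : Op F) (i : ℕ) : ψ x * star (a i) = star (a i) * ψ x := by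
  have := congrArg star (S.comm (star x) i)
  rw [star_mul, star_mul, map_star, star_star] at this
  exact this.symm

theorem comm_adjoin {s : Op H} (hs : s ∈ StarAlgebra.adjoin ℂ (Set.range a)) :
    (∀ x : Op F, ψ x * s = s * ψ x) ∧ ∀ x : Op F, ψ x * star s = star s * ψ x := by
  have key : ∀ s : Op H, (∀ x : Op F, ψ x * s = s * ψ x) →
      ∀ x : Op F, ψ x * star s = star s * ψ x := by
    intro s h x
    have := congrArg star (h (star x))
    rw [star_mul, star_mul, map_star, star_star] at this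
    exact this.symm
  suffices h : ∀ x : Op F, ψ x * s = s * ψ x from ⟨h, key s h⟩
  induction hs using StarAlgebra.adjoin_induction with
  | mem x hx =>
    obtain ⟨i, rfl⟩ := hx
    exact fun x => S.comm x i
  | algebraMap r => exact fun x => (Algebra.commutes r (ψ x)).symm
  | add y z _ _ h1 h2 => exact fun x => by rw [mul_add, add_mul, h1, h2]
  | mul y z _ _ h1 h2 => exact fun x => by rw [← mul_assoc, h1, mul_assoc, h2, mul_assoc]
  | star y _ h => exact key y h

theorem asy_a (i : ℕ) : Asy T ψ a e (a i) ∧ Asy T ψ a e (star (a i)) := by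
  have h1 : a i ∈ StarAlgebra.adjoin ℂ (Set.range a) := StarAlgebra.subset_adjoin ℂ _ ⟨i, rfl⟩
  refine ⟨asy_of fun s hs γ j => ⟨_, bas_mem (mul_mem h1 hs) γ j, Eventually.of_forall fun n => ?_⟩,
    asy_of fun s hs γ j => ⟨_, bas_mem (mul_mem (star_mem h1) hs) γ j,
      Eventually.of_forall fun n => ?_⟩⟩
  · rw [bas, bas, mul_assoc]
  · rw [bas, bas, mul_assoc]

theorem asy_psi {y : Op F} (h : ∀ (γ : List E) (j : ℕ), ∃ (c : ℂ) (γ' : List E) (j' : ℕ),
    ∀ᶠ n : ℕ in atTop, y * (tw T γ * seg T e j (n - j)) = c • (tw T γ' * seg T e j' (n - j'))) :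
    Asy T ψ a e (ψ y) := by
  refine asy_of fun s hs γ j => ?_
  obtain ⟨c, γ', j', h1⟩ := h γ j
  refine ⟨c • bas T ψ e s γ' j', Submodule.smul_mem _ _ (bas_mem hs _ _), ?_⟩
  filter_upwards [h1] with n hn
  rw [Pi.smul_apply, bas, bas, ← mul_assoc, (S.comm_adjoin hs).1, mul_assoc, ← map_mul, hn,
    map_smul, mul_smul_comm]

theorem asy_T (f : E) : Asy T ψ a e (ψ (T f)) ∧ Asy T ψ a e (star (ψ (T f))) := by
  constructor
  · refine S.asy_psi fun γ j => ⟨1, f :: γ, j, Eventually.of_forall fun n => ?_⟩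
    rw [one_smul, tw_cons, mul_assoc]
  · rw [← map_star]
    refine S.asy_psi fun γ j => ?_
    cases γ with
    | nil =>
      refine ⟨⟪f, e j⟫_ℂ, [], j + 1, ?_⟩
      filter_upwards [eventually_gt_atTop j] with n hn
      rw [tw_nil, one_mul, one_mul, seg_pos T e hn, ← mul_assoc, S.inner, smul_mul_assoc, one_mul]
    | cons g γ =>
      refine ⟨⟪f, g⟫_ℂ, γ, j, Eventually.of_forall fun n => ?_⟩
      rw [tw_cons, mul_assoc, ← mul_assoc (star (T f)), S.inner, smul_mul_assoc, one_mul]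

theorem asy_Θ' (d : Op E) : Asy T ψ a e (ψ (Θ d)) := by
  refine S.asy_psi fun γ j => ?_
  cases γ with
  | nil =>
    refine ⟨1, [d (e j)], j + 1, ?_⟩
    filter_upwards [eventually_gt_atTop j] with n hn
    rw [tw_nil, one_mul, seg_pos T e hn, ← mul_assoc, S.act, one_smul, tw_cons, tw_nil, mul_one]
  | cons g γ =>
    refine ⟨1, d g :: γ, j, Eventually.of_forall fun n => ?_⟩
    rw [tw_cons, one_smul, mul_assoc, ← mul_assoc (Θ d), S.act, tw_cons, mul_assoc]

theorem asy_Θ (d : Op E) : Asy T ψ a e (ψ (Θ d)) ∧ Asy T ψ a e (star (ψ (Θ d))) := by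
  refine ⟨S.asy_Θ' d, ?_⟩
  rw [← map_star, ← map_star]
  exact S.asy_Θ' _

end Sys

variable (T Θ ψ a) in
/-- the generators -/
def Gen (e : ℕ → E) (D0 : Set (Op E)) : Set (Op H) :=
  Set.range a ∪ (Set.range (fun n => ψ (T (e n))) ∪ (fun d => ψ (Θ d)) '' D0)

variable (T Θ ψ a) in
/-- the algebra -/
noncomputable def Alg (e : ℕ → E) (D0 : Set (Op E)) : StarSubalgebra ℂ (Op H) :=
  (StarAlgebra.adjoin ℂ (Gen T Θ ψ a e D0)).topologicalClosure

namespace Sys

variable (S : Sys T Θ ψ a U) {D0 : Set (Op E)}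
include S

theorem asy_adjoin {x : Op H} (hx : x ∈ StarAlgebra.adjoin ℂ (Gen T Θ ψ a e D0)) :
    Asy T ψ a e x ∧ Asy T ψ a e (star x) := by
  induction hx using StarAlgebra.adjoin_induction with
  | mem x hx =>
    rcases hx with ⟨i, rfl⟩ | ⟨n, rfl⟩ | ⟨d, _, rfl⟩
    · exact S.asy_a i
    · exact S.asy_T (e n)
    · exact S.asy_Θ d
  | algebraMap c =>
    refine ⟨Asy.algebraMap c, ?_⟩
    rw [← algebraMap_star_comm]
    exact Asy.algebraMap _
  | add x y _ _ hx hy => exact ⟨hx.1.add hy.1, by rw [star_add]; exact hx.2.add hy.2⟩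
  | mul x y _ _ hx hy => exact ⟨hx.1.mul hy.1, by rw [star_mul]; exact hy.2.mul hx.2⟩
  | star x _ hx => exact ⟨hx.2, by rw [star_star]; exact hx.1⟩

theorem exists_eventually (he : Orthonormal ℂ e) {w : ℕ → Op H} (hw : w ∈ Sp T ψ a e) :
    ∃ s ∈ StarAlgebra.adjoin ℂ (Set.range a), ∀ᶠ n : ℕ in atTop,
      ψ (star (seg T e 0 n)) * w n = s := by
  induction hw using Submodule.span_induction with
  | mem w hw =>
    obtain ⟨s, hs, γ, j, rfl⟩ := hw
    obtain ⟨c, hc⟩ := word_scalar S.inner he γ 0 j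
    refine ⟨c • s, (StarAlgebra.adjoin ℂ (Set.range a)).smul_mem hs c, ?_⟩
    filter_upwards [hc] with n hn
    rw [Nat.sub_zero] at hn
    rw [bas, ← mul_assoc, (S.comm_adjoin hs).1, mul_assoc, ← map_mul, hn, map_smul, map_one,
      mul_smul_comm, mul_one]
  | zero => exact ⟨0, zero_mem _, Eventually.of_forall fun n => mul_zero _⟩
  | add w1 w2 _ _ h1 h2 =>
    obtain ⟨s1, m1, e1⟩ := h1
    obtain ⟨s2, m2, e2⟩ := h2
    refine ⟨s1 + s2, add_mem m1 m2, ?_⟩
    filter_upwards [e1, e2] with n a1 a2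
    rw [Pi.add_apply, mul_add, a1, a2]
  | smul c w _ h1 =>
    obtain ⟨s1, m1, e1⟩ := h1
    refine ⟨c • s1, (StarAlgebra.adjoin ℂ (Set.range a)).smul_mem m1 c, ?_⟩
    filter_upwards [e1] with n a1
    rw [Pi.smul_apply, mul_smul_comm, a1]

theorem exists_compress (he : Orthonormal ℂ e) {x : Op H}
    (hx : x ∈ StarAlgebra.adjoin ℂ (Gen T Θ ψ a e D0)) :
    ∃ s ∈ StarAlgebra.adjoin ℂ (Set.range a), ∃ n : ℕ,
      ψ (star (seg T e 0 n)) * (x * ψ (seg T e 0 n)) = s := by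
  obtain ⟨w', hw', h1⟩ := (S.asy_adjoin hx).1 (bas T ψ e 1 [] 0) (bas_mem (one_mem _) _ _)
  obtain ⟨s, hs, h2⟩ := S.exists_eventually he hw'
  obtain ⟨n, h3, h4⟩ := (h1.and h2).exists
  refine ⟨s, hs, n, ?_⟩
  rw [← h4, ← h3, bas, tw_nil, one_mul, one_mul, Nat.sub_zero]

end Sys

variable (T ψ) in
/-- the projections -/
noncomputable def pr (e : ℕ → E) (n : ℕ) : Op H := 1 - ψ (seg T e 0 n * star (seg T e 0 n))

variable (T ψ a) in
/-- the sequence whose common kernel is the determined state -/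
noncomputable def cs (e : ℕ → E) (m : ℕ) : Op H := if m % 2 = 0 then a (m / 2) else pr T ψ e (m / 2)

theorem cs_even (e : ℕ → E) (i : ℕ) : cs T ψ a e (2 * i) = a i := by
  have h1 : 2 * i % 2 = 0 := by omega
  have h2 : 2 * i / 2 = i := by omega
  rw [cs, if_pos h1, h2]

theorem cs_odd (e : ℕ → E) (i : ℕ) : cs T ψ a e (2 * i + 1) = pr T ψ e i := by
  have h1 : ¬ (2 * i + 1) % 2 = 0 := by omega
  have h2 : (2 * i + 1) / 2 = i := by omega
  rw [cs, if_neg h1, h2]

namespace Sys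

variable (S : Sys T Θ ψ a U) {D0 : Set (Op E)} (he : Orthonormal ℂ e)
include S

theorem seg_mem (j m : ℕ) : ψ (seg T e j m) ∈ Alg T Θ ψ a e D0 := by
  induction m generalizing j with
  | zero => rw [seg_zero, map_one]; exact one_mem _
  | succ m ih =>
    rw [seg_succ, map_mul]
    exact mul_mem (StarSubalgebra.le_topologicalClosure _
      (StarAlgebra.subset_adjoin ℂ _ (Or.inr (Or.inl ⟨j, rfl⟩)))) (ih _)

theorem a_mem (i : ℕ) : a i ∈ Alg T Θ ψ a e D0 :=
  StarSubalgebra.le_topologicalClosure _ (StarAlgebra.subset_adjoin ℂ _ (Or.inl ⟨i, rfl⟩))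

theorem pr_mem (n : ℕ) : pr T ψ e n ∈ Alg T Θ ψ a e D0 := by
  rw [pr, map_mul, map_star]
  exact sub_mem (one_mem _) (mul_mem (S.seg_mem 0 n) (star_mem (S.seg_mem 0 n)))

theorem cs_mem (m : ℕ) : cs T ψ a e m ∈ Alg T Θ ψ a e D0 := by
  rw [cs]
  split_ifs
  · exact S.a_mem _
  · exact S.pr_mem _

include he

theorem pr_sq (n : ℕ) : star (pr T ψ e n) * pr T ψ e n = pr T ψ e n := by
  have h1 : seg T e 0 n * star (seg T e 0 n) * (seg T e 0 n * star (seg T e 0 n)) =
      seg T e 0 n * star (seg T e 0 n) := by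
    rw [mul_assoc, ← mul_assoc (star _), star_seg_mul S.inner he, one_mul]
  have h2 : star (pr T ψ e n) = pr T ψ e n := by
    rw [pr, star_sub, star_one, ← map_star, star_mul, star_star]
  rw [h2, pr, mul_sub, sub_mul, sub_mul, ← map_mul, h1]
  simp

theorem pr_norm (n : ℕ) : ‖pr T ψ e n‖ ≤ 1 := by
  have h1 := CStarRing.norm_star_mul_self (x := pr T ψ e n)
  rw [S.pr_sq he] at h1
  by_contra h
  push Not at h
  nlinarith

theorem cs_norm (m : ℕ) : ‖cs T ψ a e m‖ ≤ 1 := by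
  rw [cs]
  split_ifs
  · exact S.rel.norm_le _
  · exact S.pr_norm he _

theorem pr_mul_seg {n m : ℕ} (h : n ≤ m) : pr T ψ e n * ψ (seg T e 0 m) = 0 := by
  obtain ⟨k, rfl⟩ := Nat.exists_eq_add_of_le h
  rw [pr, sub_mul, one_mul, ← map_mul, seg_add, mul_assoc, ← mul_assoc (star _),
    star_seg_mul S.inner he, one_mul, sub_self]

theorem norm_seg (P : Op H →⋆ₐ[ℂ] Op K) (j m : ℕ) (z : K) : ‖P (ψ (seg T e j m)) z‖ = ‖z‖ := by
  have h1 : ⟪P (ψ (seg T e j m)) z, P (ψ (seg T e j m)) z⟫_ℂ = ⟪z, z⟫_ℂ := by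
    rw [← inner_star_apply P, ← map_mul_apply, ← map_star, ← map_mul, star_seg_mul S.inner he,
      map_one, map_one]
    rfl
  rw [inner_self_eq_norm_sq_to_K, inner_self_eq_norm_sq_to_K] at h1
  have h2 : ‖P (ψ (seg T e j m)) z‖ ^ 2 = ‖z‖ ^ 2 := by exact_mod_cast h1
  exact (sq_eq_sq₀ (norm_nonneg _) (norm_nonneg _)).1 h2

theorem det (P : Op H →⋆ₐ[ℂ] Op K) : Det P (kk (cs T ψ a e)) (Alg T Θ ψ a e D0) := by
  intro x hx
  refine (closure_minimal (s := (StarAlgebra.adjoin ℂ (Gen T Θ ψ a e D0) : Set (Op H)))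
    (t := {x : Op H | ∃ c : ℂ, DetAt P (kk (cs T ψ a e)) x c}) ?_ (isClosed_det P _)) hx
  intro x hx
  obtain ⟨s, hs, n, hn⟩ := S.exists_compress he hx
  obtain ⟨c, hc⟩ := exists_const_adjoin P S.rel hs
  refine ⟨c, fun z w hz hw => ?_⟩
  rw [k_ker_iff (S.cs_norm he)] at hz hw
  have ha : ∀ z : K, (∀ i, P (cs T ψ a e i) z = 0) →
      ∀ i, P (a i) (P (ψ (star (seg T e 0 n))) z) = 0 := by
    intro z hz i
    have h1 := hz (2 * i)
    rw [cs_even] at h1
    rw [← map_mul_apply, ← S.comm, map_mul_apply, h1, map_zero]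
  have hp : ∀ z : K, (∀ i, P (cs T ψ a e i) z = 0) →
      P (ψ (seg T e 0 n)) (P (ψ (star (seg T e 0 n))) z) = z := by
    intro z hz
    have h1 := hz (2 * n + 1)
    rw [cs_odd, pr, map_sub, map_one, sub_apply, one_apply_eq_self, sub_eq_zero] at h1
    rw [← map_mul_apply, ← map_mul, ← h1]
  have h1 := hc _ _ (ha z hz) (ha w hw)
  have h2 : ⟪P (ψ (star (seg T e 0 n))) w, P (ψ (star (seg T e 0 n))) z⟫_ℂ = ⟪w, z⟫_ℂ := by
    rw [map_star ψ, ← inner_star_apply P, star_star, ← map_star, hp z hz]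
  have h3 : ⟪P (ψ (star (seg T e 0 n))) w, P s (P (ψ (star (seg T e 0 n))) z)⟫_ℂ =
      ⟪w, P x z⟫_ℂ := by
    rw [← hn, map_mul_apply, map_mul_apply, hp z hz]
    conv_lhs => rw [map_star ψ]
    rw [← inner_star_apply P, star_star, ← map_star ψ, ← map_mul_apply, ← map_mul_apply]
    have h4 : ⟪w, P (ψ (seg T e 0 n) * (ψ (star (seg T e 0 n)))) (P x z)⟫_ℂ = ⟪w, P x z⟫_ℂ := by
      rw [map_mul_apply, map_star ψ]
      have h5 := inner_star_apply P (star (ψ (seg T e 0 n))) w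
        (P (star (ψ (seg T e 0 n))) (P x z))
      rw [star_star] at h5
      rw [h5]
      have h6 := inner_star_apply P (ψ (seg T e 0 n)) (P (star (ψ (seg T e 0 n))) w) (P x z)
      rw [h6, ← map_star ψ, hp w hw]
    rw [map_mul_apply, map_mul_apply] at *
    exact h4
  rw [← h3, h1, h2]

omit he in
theorem alg_le_centralizer : Alg T Θ ψ a e D0 ≤ StarSubalgebra.centralizer ℂ {U} := by
  have hψ : ∀ x : Op F, ψ x ∈ StarSubalgebra.centralizer ℂ {U} := by
    intro x
    rw [StarSubalgebra.mem_centralizer_iff]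
    rintro g hg
    rw [Set.mem_singleton_iff.mp hg]
    refine ⟨(S.commU x).symm, ?_⟩
    have := congrArg star (S.commU (star x))
    rw [star_mul, star_mul, map_star, star_star] at this
    exact this
  refine StarSubalgebra.topologicalClosure_minimal (StarAlgebra.adjoin_le ?_) ?_
  · rintro _ (⟨i, rfl⟩ | ⟨n, rfl⟩ | ⟨d, _, rfl⟩)
    · exact S.rel.le_centralizer (gen_mem i)
    · exact hψ _
    · exact hψ _
  · exact Set.isClosed_centralizer _

omit he in
theorem baseAlg_le : baseAlg a ≤ Alg T Θ ψ a e D0 :=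
  StarSubalgebra.topologicalClosure_mono (StarAlgebra.adjoin_mono Set.subset_union_left)

theorem isBase (hD0 : D0.Countable)
    (noV : ∀ k' ∈ StarSubalgebra.centralizer ℂ {U},
      (∀ i, ∃ c : ℂ, ∀ z w : H, k' z = 0 → k' w = 0 → ⟪w, a i z⟫_ℂ = c * ⟪w, z⟫_ℂ) →
      ∀ z : H, k' z = 0 → z = 0) :
    IsBase (Alg T Θ ψ a e D0) (kk (cs T ψ a e)) U where
  closed := StarSubalgebra.isClosed_topologicalClosure _
  countable := ⟨Gen T Θ ψ a e D0, (Set.countable_range a).union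
    ((Set.countable_range _).union (hD0.image _)), rfl⟩
  k_mem := k_mem (S.cs_norm he) (StarSubalgebra.isClosed_topologicalClosure _) S.cs_mem
  k_nonneg := k_nonneg (S.cs_norm he)
  k_norm := k_norm_le (S.cs_norm he)
  le_centralizer := S.alg_le_centralizer
  det := by
    intro K _ _ _ P
    exact S.det he P
  full := by
    intro K _ _ _ P z hz ε hε
    obtain ⟨m, hm⟩ := exists_pow_lt_of_lt_one hε (by norm_num : (1 / 2 : ℝ) < 1)
    obtain ⟨b, hb, hbz, h⟩ := S.rel.exists_kill P hz m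
    have hz' : ‖P (ψ (seg T e 0 m) * b) z‖ = ‖P b z‖ := by
      rw [map_mul_apply, S.norm_seg he]
    refine ⟨ψ (seg T e 0 m) * b, mul_mem (S.seg_mem 0 m) (S.baseAlg_le hb), ?_, ?_⟩
    · rw [← norm_ne_zero_iff, hz']
      exact norm_ne_zero_iff.2 hbz
    · have hk : ∀ i < m, P (cs T ψ a e i) (P (ψ (seg T e 0 m) * b) z) = 0 := by
        intro i hi
        rw [cs]
        split_ifs with h2
        · rw [map_mul_apply, ← map_mul_apply, ← S.comm, map_mul_apply, h _ (by omega), map_zero]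
        · rw [map_mul_apply, ← map_mul_apply, S.pr_mul_seg he (by omega : i / 2 ≤ m), map_zero]
          rfl
      set y := P (ψ (seg T e 0 m) * b) z
      have h1 : P (∑ n ∈ Finset.range m, ((1 / 2 : ℂ) ^ (n + 1)) •
          (star (cs T ψ a e n) * cs T ψ a e n)) y = 0 := by
        rw [map_sum, sum_apply]
        refine Finset.sum_eq_zero fun n hn => ?_
        rw [map_smul, smul_apply, map_mul_apply, hk n (Finset.mem_range.mp hn)]
        simp
      have h2 : P (kk (cs T ψ a e)) y =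
          P (kk (cs T ψ a e) - ∑ n ∈ Finset.range m, ((1 / 2 : ℂ) ^ (n + 1)) •
            (star (cs T ψ a e n) * cs T ψ a e n)) y := by
        rw [map_sub, sub_apply, h1, sub_zero]
      rw [h2]
      refine (norm_map_apply_le P _ _).trans ?_
      gcongr
      exact (k_tail (S.cs_norm he) m).trans hm.le
  inj := fun k' hk' h z hz => noV k' hk' (fun i => h (a i) (S.a_mem i)) z hz
  infinite := by
    intro K _ _ _ P z hz hk
    obtain ⟨f, hf1, hf2⟩ := (S.rel.isBase noV).infinite K P z hz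
      ((S.rel.ker_iff P z).2 fun i => by
        have := (k_ker_iff (S.cs_norm he) P z).1 hk (2 * i)
        rwa [cs_even] at this)
    exact ⟨f, fun n => S.baseAlg_le (hf1 n), hf2⟩

/-- The isometries act faithfully. -/
theorem norm_T (P : Op H →⋆ₐ[ℂ] Op K) (f : E) (z : K) : ‖P (ψ (T f)) z‖ = ‖f‖ * ‖z‖ := by
  have h1 : ⟪P (ψ (T f)) z, P (ψ (T f)) z⟫_ℂ = ⟪f, f⟫_ℂ * ⟪z, z⟫_ℂ := by
    rw [← inner_star_apply P, ← map_mul_apply, ← map_star, ← map_mul, S.inner, map_smul, map_smul,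
      map_one, map_one, smul_apply, inner_smul_right]
    rfl
  rw [inner_self_eq_norm_sq_to_K, inner_self_eq_norm_sq_to_K, inner_self_eq_norm_sq_to_K] at h1
  have h2 : ‖P (ψ (T f)) z‖ ^ 2 = ‖f‖ ^ 2 * ‖z‖ ^ 2 := by exact_mod_cast h1
  rw [← mul_pow] at h2
  exact (sq_eq_sq₀ (norm_nonneg _) (by positivity)).1 h2

end Sys

end asy

end Vale.Agent.P070.H443
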