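import Vale.Agent.P070.H443.Sum
import Vale.Agent.P070.H500.Pure

/-! Every separable unital C*-algebra has a faithful representation on a separable Hilbert
space. -/

set_option linter.all false

open scoped InnerProductSpace ComplexOrder
open Set Filter Topology

namespace Vale.Agent.P070.H443

open Vale.Agent.P070.H500

universe u v

section
variable {D : Type u} [CStarAlgebra D]

attribute [local instance] CStarAlgebra.spectralOrder CStarAlgebra.spectralOrderedRing

theorem exists_norming_state [Nontrivial D] (d : D) :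
    ∃ f ∈ StatesOn (∅ : Set D), f (star d * d) = ((‖d‖ ^ 2 : ℝ) : ℂ) := by
  set p := star d * d with hpdef
  have hp : 0 ≤ p := star_mul_self_nonneg d
  have hn : ‖p‖ = ‖d‖ ^ 2 := by rw [hpdef, CStarRing.norm_star_mul_self, sq]
  have hs : ‖p‖ ∈ spectrum ℝ p := CStarAlgebra.norm_mem_spectrum_of_nonneg hp
  set c : D := algebraMap ℝ D ‖p‖ - p with hcdef
  have hc : ¬ IsUnit c := hs
  have hcs : star c = c := by
    rw [hcdef, star_sub, ← algebraMap_star_comm, star_trivial, hpdef, star_mul, star_star]
  let I : Submodule ℂ D := (LinearMap.range (LinearMap.mulRight ℂ c)).topologicalClosure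
  have hcI : c ∈ I := Submodule.le_topologicalClosure _ ⟨1, by simp⟩
  have hl : ∀ a, ∀ b ∈ I, a * b ∈ I := by
    intro a b hb
    have h1 : b ∈ closure ((LinearMap.range (LinearMap.mulRight ℂ c) : Submodule ℂ D) : Set D) := hb
    have h2 : a * b ∈ closure ((LinearMap.range (LinearMap.mulRight ℂ c) : Submodule ℂ D) :
        Set D) := by
      refine map_mem_closure (continuous_const.mul continuous_id) h1 ?_
      rintro _ ⟨y, rfl⟩
      exact ⟨a * y, by simp [mul_assoc]⟩
    exact h2
  have h1 : (1 : D) ∉ I := by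
    intro h
    have h2 : (1 : D) ∈ closure ((LinearMap.range (LinearMap.mulRight ℂ c) : Submodule ℂ D) :
      Set D) := h
    rw [Metric.mem_closure_iff] at h2
    obtain ⟨_, ⟨y, rfl⟩, hy⟩ := h2 1 one_pos
    rw [dist_eq_norm] at hy
    have hy' : ‖(1 : D) - y * c‖ < 1 := hy
    have h3 : IsUnit (1 - ((1 : D) - y * c)) := (Units.oneSub _ hy').isUnit
    rw [sub_sub_cancel] at h3
    obtain ⟨z, hz⟩ := h3
    have hleft : (↑z⁻¹ * y : D) * c = 1 := by
      rw [mul_assoc, ← hz, Units.inv_mul]
    have hright : c * star (↑z⁻¹ * y : D) = 1 := by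
      have := congrArg star hleft
      rwa [star_mul, star_one, hcs] at this
    have he : (↑z⁻¹ * y : D) = star (↑z⁻¹ * y : D) := left_inv_eq_right_inv hleft hright
    exact hc ⟨⟨c, ↑z⁻¹ * y, by rw [he]; exact hright, hleft⟩, rfl⟩
  obtain ⟨f, hf⟩ := nonempty_statesOn I (Submodule.isClosed_topologicalClosure _) hl h1
  obtain ⟨f1, f2, f3, f4, f5, f6⟩ := hf
  refine ⟨f, ⟨f1, f2, f3, f4, fun a ha => absurd ha (notMem_empty a), f6⟩, ?_⟩
  have h7 := f5 c hcI
  have h8 : f (c + p) = f c + f p := f1 c p
  have h9 : c + p = ((‖p‖ : ℝ) : ℂ) • (1 : D) := by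
    rw [hcdef, sub_add_cancel, Algebra.algebraMap_eq_smul_one]
    exact (Complex.coe_smul _ _).symm
  rw [h9, f2, f4, h7, zero_add, mul_one] at h8
  rw [← h8, hn]

theorem exists_faithful_state [Nontrivial D] [TopologicalSpace.SeparableSpace D] :
    ∃ F : D →ₚ[ℂ] ℂ, ∀ d : D, F (star d * d) = 0 → d = 0 := by
  obtain ⟨x, hx⟩ := TopologicalSpace.exists_dense_seq D
  choose f hf hfn using fun n => exists_norming_state (x n)
  have hg : Summable fun n : ℕ => (1 / 2 : ℝ) ^ (n + 1) :=
    (summable_nat_add_iff 1).mpr summable_geometric_two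
  have hsum : ∀ a : D, Summable fun n : ℕ => (1 / 2 : ℂ) ^ (n + 1) * f n a := by
    intro a
    refine Summable.of_norm_bounded (g := fun n : ℕ => (1 / 2 : ℝ) ^ (n + 1) * ‖a‖)
      (hg.mul_right _) fun n => ?_
    rw [norm_mul, norm_pow]
    have h1 : ‖(1 / 2 : ℂ)‖ = 1 / 2 := by simp
    rw [h1]
    gcongr
    exact (hf n).2.2.2.2.2 a
  let F0 : D →ₗ[ℂ] ℂ :=
    { toFun := fun a => ∑' n : ℕ, (1 / 2 : ℂ) ^ (n + 1) * f n a
      map_add' := fun a b => by
        rw [← (hsum a).tsum_add (hsum b)]
        refine tsum_congr fun n => ?_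
        rw [(hf n).1, mul_add]
      map_smul' := fun c a => by
        rw [RingHom.id_apply, smul_eq_mul, ← tsum_mul_left]
        refine tsum_congr fun n => ?_
        rw [(hf n).2.1, mul_left_comm] }
  have hF0 : ∀ a, HasSum (fun n : ℕ => (1 / 2 : ℂ) ^ (n + 1) * f n a) (F0 a) := fun a =>
    (hsum a).hasSum
  have hpos : ∀ a n, 0 ≤ (1 / 2 : ℂ) ^ (n + 1) * f n (star a * a) := by
    intro a n
    refine mul_nonneg ?_ ((hf n).2.2.1 a)
    have : (1 / 2 : ℂ) ^ (n + 1) = (((1 / 2 : ℝ) ^ (n + 1) : ℝ) : ℂ) := by push_cast; rfl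
    rw [this]
    exact Complex.zero_le_real.2 (by positivity)
  let F : D →ₚ[ℂ] ℂ := PositiveLinearMap.mk₀ F0 fun y hy => by
    obtain ⟨a, rfl⟩ := CStarAlgebra.nonneg_iff_eq_star_mul_self.1 hy
    exact (hF0 _).nonneg (hpos a)
  refine ⟨F, fun d hd => ?_⟩
  by_contra hd0
  have h0 : F0 (star d * d) = 0 := hd
  have h1 := hF0 (star d * d)
  rw [h0] at h1
  have h2 := (hasSum_zero_iff_of_nonneg (hpos d)).1 h1
  have h3 : ∀ n, f n (star d * d) = 0 := by
    intro n
    have := congrFun h2 n
    simp only [Pi.zero_apply, mul_eq_zero] at this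
    rcases this with h | h
    · exact absurd h (by positivity)
    · exact h
  have hd1 : 0 < ‖d‖ := norm_pos_iff.2 hd0
  have hopen : IsOpen {y : D | ‖star y * y - star d * d‖ < ‖d‖ ^ 2 / 2 ∧
      ‖d‖ ^ 2 / 2 < ‖y‖ ^ 2} := by
    refine IsOpen.inter ?_ ?_
    · exact isOpen_lt (by fun_prop : Continuous fun y : D => ‖star y * y - star d * d‖)
        continuous_const
    · exact isOpen_lt continuous_const (by fun_prop : Continuous fun y : D => ‖y‖ ^ 2)
  obtain ⟨n, hn1, hn2⟩ := hx.exists_mem_open hopen ⟨d, by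
    constructor
    · rw [sub_self, norm_zero]; positivity
    · have : 0 < ‖d‖ ^ 2 := by positivity
      linarith⟩
  have h4 : f n (star (x n) * x n) = f n (star (x n) * x n - star d * d) := by
    have := (hf n).1 (star (x n) * x n - star d * d) (star d * d)
    rw [sub_add_cancel, h3 n, add_zero] at this
    exact this
  have h5 := (hf n).2.2.2.2.2 (star (x n) * x n - star d * d)
  rw [← h4, hfn n, Complex.norm_real, Real.norm_of_nonneg (by positivity)] at h5
  linarith

/-- Every separable unital C*-algebra has a faithful representation on a separable Hilbert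
space. -/
theorem exists_faithful_rep [Nontrivial D] [TopologicalSpace.SeparableSpace D] :
    ∃ (L : Type u) (_ : NormedAddCommGroup L) (_ : InnerProductSpace ℂ L) (_ : CompleteSpace L)
      (σ : D →⋆ₐ[ℂ] Op L), Function.Injective σ ∧ TopologicalSpace.SeparableSpace L := by
  obtain ⟨F, hF⟩ := exists_faithful_state (D := D)
  obtain ⟨L, _, _, _, σ, z, hd, hz⟩ := exists_gns F
  have h1 : σ 1 = 1 := by
    ext y
    refine hd.induction_on (p := fun y => σ 1 y = (1 : Op L) y) y ?_ fun a => ?_
    · exact isClosed_eq (σ 1).continuous continuous_id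
    · show σ 1 (σ a z) = σ a z
      rw [← mul_rep, one_mul]
  let σ' : D →⋆ₐ[ℂ] Op L :=
    { toFun := σ
      map_one' := h1
      map_mul' := map_mul σ
      map_zero' := map_zero σ
      map_add' := map_add σ
      commutes' := fun c => by
        rw [Algebra.algebraMap_eq_smul_one, map_smul, h1, Algebra.algebraMap_eq_smul_one]
      map_star' := map_star σ }
  refine ⟨L, inferInstance, inferInstance, inferInstance, σ', ?_, ?_⟩
  · rw [injective_iff_map_eq_zero]
    intro a ha
    refine hF a ?_
    have ha' : σ a = 0 := ha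
    rw [← hz, map_mul, ha', mul_zero]
    simp
  · have hcont : Continuous fun a => σ a z := by
      have : Continuous σ := AddMonoidHomClass.continuous_of_bound σ 1 (by
        simpa only [one_mul] using NonUnitalStarAlgHom.norm_apply_le σ)
      exact (ContinuousLinearMap.apply ℂ L z).continuous.comp this
    exact hd.separableSpace hcont

end

/-- A separable Hilbert space has a countable basis. -/
theorem exists_countable_basis (L : Type*) [NormedAddCommGroup L] [InnerProductSpace ℂ L]
    [CompleteSpace L] [TopologicalSpace.SeparableSpace L] :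
    ∃ (w : Set L) (b : HilbertBasis w ℂ L), Countable w := by
  obtain ⟨w, b, hb⟩ := exists_hilbertBasis ℂ L
  refine ⟨w, b, ?_⟩
  have ho := b.orthonormal
  refine Pairwise.countable_of_isOpen_disjoint (s := fun i : w => Metric.ball (b i) (1 / 2)) ?_
    (fun i => Metric.isOpen_ball) (fun i => ⟨b i, Metric.mem_ball_self (by norm_num)⟩)
  intro i j hij
  rw [Function.onFun, Set.disjoint_left]
  intro y h1 h2
  rw [Metric.mem_ball] at h1 h2
  have h3 : ‖b i - b j‖ < 1 := by
    rw [← dist_eq_norm]
    calc dist (b i) (b j) ≤ dist (b i) y + dist y (b j) := dist_triangle _ _ _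
      _ = dist y (b i) + dist y (b j) := by rw [dist_comm]
      _ < 1 / 2 + 1 / 2 := add_lt_add h1 h2
      _ = 1 := by norm_num
  have h4 := norm_sub_sq (𝕜 := ℂ) (b i) (b j)
  rw [ho.1, ho.1, ho.2 hij] at h4
  simp only [map_zero, mul_zero, sub_zero] at h4
  nlinarith [norm_nonneg (b i - b j)]

/-- Every separable nonzero unital C*-algebra is represented faithfully on a Hilbert space with a
basis indexed by `ℕ`. -/
theorem exists_rep_basis (D : Type u) [CStarAlgebra D] [Nontrivial D]
    [TopologicalSpace.SeparableSpace D] :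
    ∃ (E : Type u) (_ : NormedAddCommGroup E) (_ : InnerProductSpace ℂ E) (_ : CompleteSpace E)
      (θ : D →⋆ₐ[ℂ] Op E), Function.Injective θ ∧ Nonempty (HilbertBasis ℕ ℂ E) := by
  obtain ⟨L, _, _, _, σ, hσ, hsep⟩ := exists_faithful_rep (D := D)
  obtain ⟨w, b, hw⟩ := exists_countable_basis L
  have hL : Nontrivial L := by
    by_contra hN
    rw [not_nontrivial_iff_subsingleton] at hN
    have h1 : (0 : D) = 1 := hσ (ContinuousLinearMap.ext fun x => Subsingleton.elim _ _)
    exact zero_ne_one h1
  have hwne : Nonempty w := by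
    by_contra hN
    rw [not_nonempty_iff] at hN
    obtain ⟨x, hx⟩ := exists_ne (0 : L)
    apply hx
    have h4 : b.repr x = 0 := by
      ext k
      exact (hN.false k).elim
    exact (map_eq_zero_iff b.repr b.repr.injective).1 h4
  refine ⟨lp (fun _ : ℕ => L) 2, inferInstance, inferInstance, inferInstance,
    dsum (fun _ => σ), ?_, exists_basis_lp ℕ b⟩
  classical
  rw [injective_iff_map_eq_zero]
  intro d hd
  apply hσ
  rw [map_zero]
  ext x
  have h1 := congrArg (fun T : Op (lp (fun _ : ℕ => L) 2) =>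
    T (lp.single 2 0 x : lp (fun _ : ℕ => L) 2) 0) hd
  have h2 : dsum (fun _ : ℕ => σ) d (lp.single 2 0 x : lp (fun _ : ℕ => L) 2) 0 =
      σ d ((lp.single 2 0 x : lp (fun _ : ℕ => L) 2) 0) := rfl
  have h3 : (lp.single 2 0 x : lp (fun _ : ℕ => L) 2) 0 = x := by
    rw [lp.single_apply, Pi.single_eq_same]
  simp only at h1
  rw [h2, h3] at h1
  rw [h1]
  rfl

/-- Every separable nonzero unital C*-algebra is represented faithfully on `ℓ²(ℕ)`. -/
theorem exists_rep_l2 (D : Type u) [CStarAlgebra D] [Nontrivial D]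
    [TopologicalSpace.SeparableSpace D] :
    ∃ θ : D →⋆ₐ[ℂ] Op (L2 ℕ), Function.Injective θ := by
  obtain ⟨E, _, _, _, θ, hθ, ⟨b⟩⟩ := exists_rep_basis D
  exact ⟨(b.repr.conjStarAlgEquiv : Op E →⋆ₐ[ℂ] Op (L2 ℕ)).comp θ,
    b.repr.conjStarAlgEquiv.injective.comp hθ⟩

/-- The unitization of a separable C*-algebra is separable. -/
theorem separable_unitization (D : Type u) [NonUnitalCStarAlgebra D]
    [TopologicalSpace.SeparableSpace D] : TopologicalSpace.SeparableSpace (Unitization ℂ D) := by
  have hc : Continuous fun p : ℂ × D =>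
      (algebraMap ℂ (Unitization ℂ D) p.1 + (p.2 : Unitization ℂ D)) := by
    refine Continuous.add ?_ ?_
    · exact (algebraMapCLM ℂ (Unitization ℂ D)).continuous.comp continuous_fst
    · exact (Unitization.isometry_inr (𝕜 := ℂ) (A := D)).continuous.comp continuous_snd
  have hs : Function.Surjective fun p : ℂ × D =>
      (algebraMap ℂ (Unitization ℂ D) p.1 + (p.2 : Unitization ℂ D)) := by
    intro x
    refine ⟨(x.fst, x.snd), ?_⟩
    exact Unitization.inl_fst_add_inr_snd_eq x
  exact hs.denseRange.separableSpace hc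

end Vale.Agent.P070.H443
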