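import Vale.Agent.P070.H443.Base
import Vale.Agent.P070.H443.Faith
import Vale.Agent.P070.H500.Main

/-! Every separable C*-algebra embeds in a counterexample to Naimark's problem. -/

set_option linter.all false

namespace Vale.Agent.P070.H443

open scoped InnerProductSpace
open Filter Topology

universe u v w

/-- The construction of `main_exists` over given base data. (The proof of `main_exists` is
repeated for arbitrary base data, with the image of the base algebra as additional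
conclusion.) -/
theorem of_base {H : Type} [NormedAddCommGroup H] [InnerProductSpace ℂ H] [CompleteSpace H]
    [Nontrivial H] {A0 : StarSubalgebra ℂ (Op H)} {k0 U : Op H} (hB : IsBase A0 k0 U)
    (hcard : Cardinal.mk (Op H) ≤ Cardinal.continuum) :
    ∃ (B : Type) (_ : CStarAlgebra B), PropertyN.{0, v} B ∧
    ¬ IsCompacts.{0, w} B ∧ ¬ FiniteDimensional ℂ B ∧
    (∃ (L : Type) (_ : NormedAddCommGroup L) (_ : InnerProductSpace ℂ L) (_ : CompleteSpace L)
      (π : B →⋆ₙₐ[ℂ] (L →L[ℂ] L)), IsIrred π ∧ Function.Injective π) ∧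
    Cardinal.mk B ≤ Cardinal.continuum ∧
    ∃ (q0 : A0 →⋆ₐ[ℂ] B) (K : Type) (_ : NormedAddCommGroup K) (_ : InnerProductSpace ℂ K)
      (_ : CompleteSpace K) (P : Op H →⋆ₐ[ℂ] Op K) (ξ : K), ξ ≠ 0 ∧
      ∀ a : A0, q0 a = 0 → ∀ b ∈ A0, P (a : Op H) (P b ξ) = 0 := by
  obtain ⟨K, _, _, _, P, hP⟩ := exists_ultraRep H
  obtain ⟨ξ, hξ, hξk⟩ : ∃ z : K, ‖z‖ = 1 ∧ P k0 z = 0 := by
    refine exists_ker hP fun ε hε => ?_
    obtain ⟨x, hx⟩ := exists_ne (0 : H)
    obtain ⟨b, _, hb1, hb2⟩ := hB.full H (StarAlgHom.id ℂ (Op H)) x hx ε hε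
    exact ⟨b x, hb1, hb2⟩
  have hξ0 : ξ ≠ 0 := by
    intro h
    rw [h, norm_zero] at hξ
    exact zero_ne_one hξ
  obtain ⟨ι, _, _, k, u, T, hmax⟩ := exists_maximal_tower P A0 k0 U hB.k_mem hB.k_nonneg
    (hB.det K P) ⟨ξ, hξk, hξ0⟩
  have hcl := gen_isClosed A0 u Set.univ
  have hdet0 := tower_det0 hB.closed T
  have hk0A : k0 ∈ gen A0 u Set.univ := le_gen A0 u _ hB.k_mem
  obtain ⟨Kf, _, _, _, ρ, j, x, hjx, hj, hdense⟩ := exists_cyclic P (gen A0 u Set.univ) ξ
  have hx1 : ‖x‖ = 1 := by rw [← hξ, ← hjx, j.norm_map]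
  have hx0 : x ≠ 0 := by
    intro h
    rw [h, norm_zero] at hx1
    exact zero_ne_one hx1
  -- the algebra
  set B : StarSubalgebra ℂ (Op Kf) := ρ.range.topologicalClosure with hBdef
  have hBcl : IsClosed (B : Set (Op Kf)) := StarSubalgebra.isClosed_topologicalClosure _
  have hρB : ∀ a, ρ a ∈ B := fun a => StarSubalgebra.le_topologicalClosure _ ⟨a, rfl⟩
  let q : gen A0 u Set.univ →⋆ₐ[ℂ] B := StarAlgHom.codRestrict ρ B hρB
  have hq : ∀ a, ((q a : B) : Op Kf) = ρ a := fun a => rfl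
  have hqd : DenseRange q := by
    intro b
    rw [closure_subtype]
    have h1 : ((b : B) : Op Kf) ∈ closure (ρ.range : Set (Op Kf)) := b.2
    refine closure_mono ?_ h1
    rintro _ ⟨a, rfl⟩
    exact ⟨q a, ⟨a, rfl⟩, rfl⟩
  let _ : CStarAlgebra B := StarSubalgebra.cstarAlgebra B
  have hcont : ∀ {L : Type v} [NormedAddCommGroup L] [InnerProductSpace ℂ L] [CompleteSpace L]
      (π : B →⋆ₐ[ℂ] (L →L[ℂ] L)) (z : L), Continuous fun b => π b z := by
    intro L _ _ _ π z
    have : Continuous π := AddMonoidHomClass.continuous_of_bound π 1 (by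
      simpa only [one_mul] using NonUnitalStarAlgHom.norm_apply_le π)
    exact (ContinuousLinearMap.apply ℂ L z).continuous.comp this
  have hBnt : Nontrivial B := by
    refine ⟨⟨0, 1, ?_⟩⟩
    intro h
    have h1 : ((0 : B) : Op Kf) x = ((1 : B) : Op Kf) x := by rw [h]
    exact hx0 h1.symm
  set κ : B := q ⟨k0, hk0A⟩ with hκ
  -- constants
  have hc : ∀ a : gen A0 u Set.univ, DetAt P k0 (a : Op H) ⟪x, ρ a x⟫_ℂ := by
    intro a
    obtain ⟨c, hc⟩ := hdet0 a a.2
    have h1 := hc ξ ξ hξk hξk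
    have h2 : ⟪ξ, ξ⟫_ℂ = 1 := by rw [inner_self_eq_norm_sq_to_K, hξ]; norm_num
    rw [h2, mul_one] at h1
    have h3 : ⟪x, ρ a x⟫_ℂ = c := by
      rw [← h1, ← j.inner_map_map, hj, hjx]
    rw [h3]
    exact hc
  have hinf : ¬ FiniteDimensional ℂ B := by
    intro hfin
    obtain ⟨e, he, ho⟩ := hB.infinite K P ξ hξ hξk
    have hli : LinearIndependent ℂ (fun n : ℕ => P (e n) ξ) := ho.linearIndependent
    let f : B →ₗ[ℂ] K :=
      { toFun := fun b => j ((b : Op Kf) x)
        map_add' := fun a b => by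
          show j (((a : Op Kf) + (b : Op Kf)) x) = _
          rw [add_apply, map_add]
        map_smul' := fun r b => by
          show j ((r • (b : Op Kf)) x) = _
          rw [smul_apply, map_smul]
          rfl }
    have hfe : ∀ n, f (q ⟨e n, le_gen A0 u _ (he n)⟩) = P (e n) ξ := by
      intro n
      show j (ρ ⟨e n, le_gen A0 u _ (he n)⟩ x) = P (e n) ξ
      rw [hj, hjx]
    have hli2 : LinearIndependent ℂ (fun n : ℕ => q ⟨e n, le_gen A0 u _ (he n)⟩) := by
      refine LinearIndependent.of_comp f ?_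
      have : (f ∘ fun n : ℕ => q ⟨e n, le_gen A0 u _ (he n)⟩) = fun n : ℕ => P (e n) ξ :=
        funext hfe
      rw [this]
      exact hli
    exact Module.Finite.not_linearIndependent_of_infinite _ hli2
  have hdetB : ∀ (L : Type v) [NormedAddCommGroup L] [InnerProductSpace ℂ L] [CompleteSpace L]
      (π : B →⋆ₐ[ℂ] (L →L[ℂ] L)) (b : B) (z w : L), π κ z = 0 → π κ w = 0 →
      ⟪w, π b z⟫_ℂ = ⟪x, ((b : B) : Op Kf) x⟫_ℂ * ⟪w, z⟫_ℂ := by
      intro L _ _ _ π b z w hz hw
      refine hqd.induction_on (p := fun b => ⟪w, π b z⟫_ℂ =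
        ⟪x, ((b : B) : Op Kf) x⟫_ℂ * ⟪w, z⟫_ℂ) b ?_ ?_
      · refine isClosed_eq (continuous_const.inner (hcont π z)) ?_
        refine Continuous.mul ?_ continuous_const
        refine continuous_const.inner ?_
        exact (ContinuousLinearMap.apply ℂ Kf x).continuous.comp continuous_subtype_val
      · intro a
        exact det_transfer hP _ hcl hk0A hB.k_nonneg (hc a) (π.comp q) z w hz hw
  have hkerB : ∀ (L : Type v) [NormedAddCommGroup L] [InnerProductSpace ℂ L] [CompleteSpace L]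
      (π : B →⋆ₐ[ℂ] (L →L[ℂ] L)), Nontrivial L →
      (∀ V : Submodule ℂ L, IsClosed (V : Set L) → (∀ b, ∀ x ∈ V, π b x ∈ V) →
        V = ⊥ ∨ V = ⊤) → ∃ z : L, z ≠ 0 ∧ π κ z = 0 := by
      intro L _ _ _ π hL hirr
      refine exists_ker_of_irred hB hP T hmax hξ hξk (π.comp q) ?_ ?_
      · intro V hV hinv
        refine hirr V hV ?_
        intro b y hy
        refine hqd.induction_on (p := fun b => π b y ∈ V) b ?_ ?_
        · exact hV.preimage (hcont π y)
        · intro a
          exact hinv a y hy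
      · intro a ha
        have h1 : ρ a = 0 := by
          ext y
          refine hdense.induction_on (p := fun y => ρ a y = (0 : Op Kf) y) y ?_ ?_
          · exact isClosed_eq (ρ a).continuous continuous_const
          · intro b
            apply j.injective
            rw [hj, hj, hjx, ha b]
            simp
        have h2 : q a = 0 := Subtype.ext h1
        show π (q a) = 0
        rw [h2, map_zero]
  refine ⟨B, inferInstance, propertyN_of_determined κ _ hdetB hkerB, not_isCompacts hinf, hinf,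
    ?_, ?_, ?_⟩
  · -- the identity representation
    let ρ' : B →⋆ₙₐ[ℂ] (Kf →L[ℂ] Kf) :=
      { toFun := fun b => (b : Op Kf)
        map_smul' := fun _ _ => rfl
        map_zero' := rfl
        map_add' := fun _ _ => rfl
        map_mul' := fun _ _ => rfl
        map_star' := fun _ => rfl }
    refine ⟨Kf, inferInstance, inferInstance, inferInstance, ρ', ?_, Subtype.val_injective⟩
    have hjk : ∀ z : Kf, ρ' κ z = 0 → P k0 (j z) = 0 := by
      intro z hz
      have h1 : j (ρ ⟨k0, hk0A⟩ z) = P k0 (j z) := hj _ _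
      rw [← h1]
      have h2 : ρ ⟨k0, hk0A⟩ z = 0 := hz
      rw [h2, map_zero]
    refine irred_of_determined ρ' κ x hx0 ?_ ?_ ?_
    · show ρ ⟨k0, hk0A⟩ x = 0
      apply j.injective
      rw [hj, hjx, hξk, map_zero]
    · refine hdense.mono ?_
      rintro _ ⟨a, rfl⟩
      exact ⟨q a, rfl⟩
    · intro b
      refine ⟨⟪x, (b : Op Kf) x⟫_ℂ, fun z w hz hw => ?_⟩
      refine hqd.induction_on (p := fun b => ⟪w, ((b : B) : Op Kf) z⟫_ℂ =
        ⟪x, ((b : B) : Op Kf) x⟫_ℂ * ⟪w, z⟫_ℂ) b ?_ ?_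
      · refine isClosed_eq (continuous_const.inner ?_) ?_
        · exact (ContinuousLinearMap.apply ℂ Kf z).continuous.comp continuous_subtype_val
        · refine Continuous.mul ?_ continuous_const
          refine continuous_const.inner ?_
          exact (ContinuousLinearMap.apply ℂ Kf x).continuous.comp continuous_subtype_val
      · intro a
        have h1 := hc a (j z) (j w) (hjk z hz) (hjk w hw)
        rw [← hj, j.inner_map_map, j.inner_map_map] at h1
        exact h1
  · -- cardinality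
    exact mk_closure_le hcard q hqd
  · have hle : ∀ a : A0, (a : Op H) ∈ gen A0 u Set.univ := fun a => le_gen A0 u _ a.2
    let i0 : A0 →⋆ₐ[ℂ] gen A0 u Set.univ :=
      StarAlgHom.codRestrict A0.subtype (gen A0 u Set.univ) hle
    refine ⟨q.comp i0, K, inferInstance, inferInstance, inferInstance, P, ξ, hξ0, ?_⟩
    intro a ha b hb
    have h1 : ρ (i0 a) = 0 := congrArg Subtype.val ha
    have h2 : j (ρ (i0 a) (ρ ⟨b, le_gen A0 u _ hb⟩ x)) = P (a : Op H) (P b ξ) := by
      rw [hj, hj, hjx]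
      rfl
    rw [← h2, h1]
    simp

/-- The relations hold in the self-similar model. -/
theorem sys_of_basis {E : Type} [NormedAddCommGroup E] [InnerProductSpace ℂ E] [CompleteSpace E]
    (bF : HilbertBasis ℕ ℂ (lp (fun _ : ℕ => E) 2)) :
    Sys (fun e : E => (ins bF e : Op (lp (fun _ : ℕ => E) 2))) (amp ℕ) (amp Idx)
      (fA (lp (fun _ : ℕ => E) 2)) (fU (lp (fun _ : ℕ => E) 2)) where
  rel := rel_f
  inner := by
    intro f e
    ext1 x
    refine ext_inner_left ℂ fun v => ?_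
    show ⟪v, star (ins bF f : Op (lp (fun _ : ℕ => E) 2)) (ins bF e x)⟫_ℂ = ⟪v, ⟪f, e⟫_ℂ • x⟫_ℂ
    rw [ContinuousLinearMap.star_eq_adjoint, ContinuousLinearMap.adjoint_inner_right, ins_inner,
      inner_smul_right]
  act := by
    intro d e
    ext1 x
    exact amp_ins bF d e x
  comm := fun x i => amp_fA_comm x i
  commU := fun x => amp_fU_comm x

/-- Operators on a separable Hilbert space form a set of cardinality at most the continuum. -/
theorem mk_Op_le' {H : Type} [NormedAddCommGroup H] [InnerProductSpace ℂ H]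
    {ι : Type} [Countable ι] (b : HilbertBasis ι ℂ H) :
    Cardinal.mk (Op H) ≤ Cardinal.continuum := by
  refine (Cardinal.mk_le_of_injective (f := fun T : Op H =>
    ((b.repr : H →L[ℂ] L2 ι) ∘L T ∘L (b.repr.symm : L2 ι →L[ℂ] H) : Op (L2 ι))) ?_).trans mk_Op_le
  intro S T h
  ext1 x
  have h1 := congrArg (fun X : Op (L2 ι) => X (b.repr x)) h
  have h2 : b.repr (S (b.repr.symm (b.repr x))) = b.repr (T (b.repr.symm (b.repr x))) := h1
  rw [b.repr.symm_apply_apply] at h2
  exact b.repr.injective h2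

/-- Every nonzero separable unital C*-algebra embeds unitally. -/
theorem embed_unital (D : Type u) [CStarAlgebra D] [Nontrivial D]
    [TopologicalSpace.SeparableSpace D] :
    ∃ (B : Type) (_ : CStarAlgebra B), PropertyN.{0, v} B ∧
    ¬ IsCompacts.{0, w} B ∧ ¬ FiniteDimensional ℂ B ∧
    (∃ (L : Type) (_ : NormedAddCommGroup L) (_ : InnerProductSpace ℂ L) (_ : CompleteSpace L)
      (π : B →⋆ₙₐ[ℂ] (L →L[ℂ] L)), IsIrred π ∧ Function.Injective π) ∧
    Cardinal.mk B ≤ Cardinal.continuum ∧ ∃ f : D →⋆ₐ[ℂ] B, Function.Injective f := by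
  obtain ⟨θ, hθ⟩ := exists_rep_l2 D
  let E : Type := L2 ℕ
  let bE : HilbertBasis ℕ ℂ E := HilbertBasis.ofRepr (LinearIsometryEquiv.refl ℂ (L2 ℕ))
  obtain ⟨bF⟩ := exists_basis_lp ℕ bE
  obtain ⟨bH⟩ := exists_basis_lp Idx bF
  have S := sys_of_basis bF
  obtain ⟨x, hx⟩ := TopologicalSpace.exists_dense_seq D
  have hD0 : (θ '' Set.range x).Countable := (Set.countable_range x).image _
  set A0 := Alg (fun e : E => (ins bF e : Op (lp (fun _ : ℕ => E) 2))) (amp ℕ) (amp Idx)
      (fA (lp (fun _ : ℕ => E) 2)) (fun n => bE n) (θ '' Set.range x) with hA0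
  have hB : IsBase A0 _ (fU (lp (fun _ : ℕ => E) 2)) := S.isBase bE.orthonormal hD0 fA_noV
  have hnt : Nontrivial (LF Idx (lp (fun _ : ℕ => E) 2)) :=
    ⟨⟨bH 0, 0, fun h => by
      have := bH.orthonormal.1 0
      rw [h, norm_zero] at this
      exact zero_ne_one this⟩⟩
  obtain ⟨B, _, h1, h2, h3, h4, h5, q0, K, _, _, _, P, ξ, hξ, hq⟩ :=
    of_base.{v, w} hB (mk_Op_le' bH)
  let Φ : D →⋆ₐ[ℂ] Op (LF Idx (lp (fun _ : ℕ => E) 2)) := ((amp Idx).comp (amp ℕ)).comp θ
  have hΦ : ∀ d, Φ d = amp Idx (amp ℕ (θ d)) := fun d => rfl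
  have hmem : ∀ d, Φ d ∈ A0 := by
    intro d
    have hc : Continuous Φ := AddMonoidHomClass.continuous_of_bound Φ 1 (by
      simpa only [one_mul] using NonUnitalStarAlgHom.norm_apply_le Φ)
    refine hx.induction_on (p := fun d => Φ d ∈ A0) d ?_ ?_
    · exact (StarSubalgebra.isClosed_topologicalClosure _).preimage hc
    · intro n
      refine StarSubalgebra.le_topologicalClosure _ (StarAlgebra.subset_adjoin ℂ _ ?_)
      exact Or.inr (Or.inr ⟨θ (x n), ⟨x n, ⟨n, rfl⟩, rfl⟩, rfl⟩)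
  refine ⟨B, inferInstance, h1, h2, h3, h4, h5, q0.comp (StarAlgHom.codRestrict Φ A0 hmem), ?_⟩
  rw [injective_iff_map_eq_zero]
  intro d hd
  have hT : ∀ n, amp Idx (ins bF (bE n) : Op (lp (fun _ : ℕ => E) 2)) ∈ A0 := by
    intro n
    refine StarSubalgebra.le_topologicalClosure _ (StarAlgebra.subset_adjoin ℂ _ ?_)
    exact Or.inr (Or.inl ⟨n, rfl⟩)
  have h6 : ∀ n, θ d (bE n) = 0 := by
    intro n
    have h7 := hq ⟨Φ d, hmem d⟩ hd _ (hT n)
    have h8 : Φ d * amp Idx (ins bF (bE n) : Op (lp (fun _ : ℕ => E) 2)) =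
        amp Idx (ins bF (θ d (bE n)) : Op (lp (fun _ : ℕ => E) 2)) := by
      rw [hΦ, ← map_mul]
      congr 1
      exact S.act (θ d) (bE n)
    rw [← map_mul_apply, h8] at h7
    have h9 := S.norm_T bE.orthonormal P (θ d (bE n)) ξ
    rw [h7, norm_zero] at h9
    rcases mul_eq_zero.1 h9.symm with h | h
    · exact norm_eq_zero.1 h
    · exact absurd (norm_eq_zero.1 h) hξ
  apply hθ
  rw [map_zero]
  ext1 y
  have h10 := (bE.hasSum_repr y).mapL (θ d)
  have h11 : (fun n => θ d (bE.repr y n • bE n)) = fun _ => 0 := by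
    funext n
    rw [map_smul, h6, smul_zero]
  rw [h11] at h10
  exact h10.unique hasSum_zero

end Vale.Agent.P070.H443
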