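import Vale.Agent.P070.H443.Embed

/-! The final theorem: every separable C*-algebra embeds in a counterexample. -/

set_option linter.all false

namespace Vale.Agent.P070.Naimark

universe u v w

/-- Every nonzero separable unital C*-algebra embeds unitally in a simple unital C*-algebra with
property (N) that is not an algebra of compact operators. -/
theorem embeds_unital (D : Type u) [CStarAlgebra D] [Nontrivial D]
    [TopologicalSpace.SeparableSpace D] : ∃ (A : Type) (_ : CStarAlgebra A),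
      PropertyN.{0, v} A ∧ ¬ IsCompacts.{0, w} A ∧ ¬ FiniteDimensional ℂ A ∧
      HasFaithfulIrrep.{0, 0} A ∧ IsSimpleAlg A ∧ Cardinal.mk A = Cardinal.continuum ∧
      ∃ f : D →⋆ₐ[ℂ] A, Function.Injective f := by
  obtain ⟨B, _, hN, hC, hF, ⟨L, _, _, _, π, hπ, hinj⟩, hcard, f, hf⟩ :=
    H443.embed_unital.{u, v, w} D
  have conv : ∀ {M : Type v} [NormedAddCommGroup M] [InnerProductSpace ℂ M] [CompleteSpace M]
      (σ : Rep B M), IsIrred σ → Vale.Agent.P070.IsIrred (A := B) (L := M) σ := by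
    intro M _ _ _ σ hσ
    refine ⟨?_, hσ.2⟩
    obtain ⟨a, x, hax⟩ := hσ.1
    refine ⟨a, fun h => hax ?_⟩
    have h1 : Rep.op σ a = 0 := h
    rw [h1]
    rfl
  have hN' : PropertyN.{0, v} B := by
    refine ⟨hN.1, ?_⟩
    intro L M _ _ _ _ _ _ π σ hπ hσ
    exact hN.2 L M π σ (conv π hπ) (conv σ hσ)
  have hFI : HasFaithfulIrrep.{0, 0} B := by
    refine ⟨L, inferInstance, inferInstance, inferInstance, π, hinj, ?_, hπ.2⟩
    obtain ⟨a, ha⟩ := hπ.1
    by_contra hcon
    push Not at hcon
    apply ha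
    ext x
    exact hcon a x
  have hcard' : Cardinal.mk B = Cardinal.continuum := by
    refine le_antisymm hcard ?_
    have hnt : Nontrivial B := hN.1
    rw [← Cardinal.mk_complex]
    refine Cardinal.mk_le_of_injective (f := fun c : ℂ => c • (1 : B)) ?_
    exact smul_left_injective ℂ one_ne_zero
  refine ⟨B, inferInstance, hN', ?_, hF, hFI,
    isSimpleAlg hN' (exists_faithful.{v} hFI), hcard', f, hf⟩
  rintro ⟨L, _, _, _, g, h1, h2⟩
  refine hC ⟨L, inferInstance, inferInstance, inferInstance, g, h1, ?_⟩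
  ext T
  exact (h2 T).symm

/-- Every separable C*-algebra, unital or not, embeds. -/
theorem embeds (D : Type u) [NonUnitalCStarAlgebra D]
    [TopologicalSpace.SeparableSpace D] : ∃ (A : Type) (_ : CStarAlgebra A),
      PropertyN.{0, v} A ∧ ¬ IsCompacts.{0, w} A ∧ ¬ FiniteDimensional ℂ A ∧
      HasFaithfulIrrep.{0, 0} A ∧ IsSimpleAlg A ∧ Cardinal.mk A = Cardinal.continuum ∧
      ∃ f : D →⋆ₙₐ[ℂ] A, Function.Injective f := by
  have hs := H443.separable_unitization D
  obtain ⟨A, _, h1, h2, h3, h4, h5, h6, f, hf⟩ := embeds_unital.{u, v, w} (Unitization ℂ D)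
  refine ⟨A, inferInstance, h1, h2, h3, h4, h5, h6,
    (f : Unitization ℂ D →⋆ₙₐ[ℂ] A).comp (Unitization.inrNonUnitalStarAlgHom ℂ D), ?_⟩
  exact hf.comp (Unitization.inr_injective)

end Vale.Agent.P070.Naimark
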