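import Vale.Agent.P070.H443.Sum

/-! The anticommuting model with values in a Hilbert space `F` (the scalar model is `opA`, `opU`
of `Bdl.B2`). -/

namespace Vale.Agent.P070.H443

open scoped InnerProductSpace ENNReal ComplexConjugate symmDiff
open Filter Topology

variable {ι : Type*} {F : Type*} [NormedAddCommGroup F] [InnerProductSpace ℂ F]

/-- `ℓ²(ι; F)` -/
noncomputable abbrev LF (ι : Type*) (F : Type*) [NormedAddCommGroup F] := lp (fun _ : ι => F) 2

theorem memlp_wp (e : ι ≃ ι) (σ : ι → ℂ) (hσ : ∀ i, ‖σ i‖ ≤ 1) (z : LF ι F) :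
    Memℓp (fun i => σ i • z (e i)) 2 ∧ Summable (fun i => ‖σ i • z (e i)‖ ^ (2 : ℝ≥0∞).toReal) ∧
      (∑' i, ‖σ i • z (e i)‖ ^ (2 : ℝ≥0∞).toReal) ≤ ‖z‖ ^ (2 : ℝ≥0∞).toReal := by
  have h0 := lp.memℓp z
  rw [memℓp_gen_iff (by norm_num)] at h0
  have h1 : Summable fun i => ‖z (e i)‖ ^ (2 : ℝ≥0∞).toReal :=
    (e.summable_iff (f := fun i => ‖z i‖ ^ (2 : ℝ≥0∞).toReal)).2 h0
  have hle : ∀ i, ‖σ i • z (e i)‖ ^ (2 : ℝ≥0∞).toReal ≤ ‖z (e i)‖ ^ (2 : ℝ≥0∞).toReal := by
    intro i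
    have h2 : ‖σ i • z (e i)‖ ≤ ‖z (e i)‖ := by
      rw [norm_smul]
      exact mul_le_of_le_one_left (norm_nonneg _) (hσ i)
    exact Real.rpow_le_rpow (norm_nonneg _) h2 (by norm_num)
  have hs := Summable.of_nonneg_of_le (fun i => by positivity) hle h1
  refine ⟨(memℓp_gen_iff (by norm_num)).2 hs, hs, ?_⟩
  rw [lp.norm_rpow_eq_tsum (by norm_num) z, ← e.tsum_eq (fun i => ‖z i‖ ^ (2 : ℝ≥0∞).toReal)]
  exact hs.tsum_le_tsum hle h1

/-- weighted permutation operators -/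
noncomputable def wp (e : ι ≃ ι) (σ : ι → ℂ) (hσ : ∀ i, ‖σ i‖ ≤ 1) : Op (LF ι F) :=
  LinearMap.mkContinuous
    { toFun := fun z => (⟨fun i => σ i • z (e i), (memlp_wp e σ hσ z).1⟩ : LF ι F)
      map_add' := by
        intro x y
        ext i
        exact smul_add _ _ _
      map_smul' := by
        intro c x
        ext i
        exact smul_comm _ _ _ } 1 (by
      intro z
      rw [one_mul]
      exact lp.norm_le_of_tsum_le (by norm_num) (norm_nonneg _) (memlp_wp e σ hσ z).2.2)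

theorem wp_apply (e : ι ≃ ι) (σ : ι → ℂ) (hσ : ∀ i, ‖σ i‖ ≤ 1) (z : LF ι F) (i : ι) :
    wp e σ hσ z i = σ i • z (e i) := rfl

theorem norm_wp_le (e : ι ≃ ι) (σ : ι → ℂ) (hσ : ∀ i, ‖σ i‖ ≤ 1) (z : LF ι F) :
    ‖wp e σ hσ z‖ ≤ ‖z‖ :=
  lp.norm_le_of_tsum_le (by norm_num) (norm_nonneg _) (memlp_wp e σ hσ z).2.2

theorem star_wp [CompleteSpace F] (e : ι ≃ ι) (σ : ι → ℂ) (hσ : ∀ i, ‖σ i‖ ≤ 1)
    (hσ' : ∀ i, ‖conj (σ (e.symm i))‖ ≤ 1) :
    star (wp (F := F) e σ hσ) = wp e.symm (fun i => conj (σ (e.symm i))) hσ' := by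
  symm
  rw [ContinuousLinearMap.star_eq_adjoint, ContinuousLinearMap.eq_adjoint_iff]
  intro x y
  rw [lp.inner_eq_tsum, lp.inner_eq_tsum]
  rw [← e.tsum_eq]
  refine tsum_congr fun i => ?_
  rw [wp_apply, wp_apply]
  simp only [Equiv.symm_apply_apply, inner_smul_left, inner_smul_right, RingHomCompTriple.comp_apply,
    RingHom.id_apply]

/-- coordinatewise convergence of bounded sequences gives weak convergence -/
theorem weak_conv' {y : ℕ → LF ι F} {y0 : LF ι F} {C : ℝ} (hC : ∀ i, ‖y i‖ ≤ C)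
    (hp : ∀ p, Tendsto (fun i => y i p) atTop (𝓝 (y0 p))) (w : LF ι F) :
    Tendsto (fun i => ⟪w, y i⟫_ℂ) atTop (𝓝 ⟪w, y0⟫_ℂ) := by
  classical
  let s : ι → F → LF ι F := fun n x => lp.single 2 n x
  have hs' : ∀ n x (f : LF ι F), ⟪s n x, f⟫_ℂ = ⟪x, f n⟫_ℂ := fun n x f =>
    lp.inner_single_left n x f
  have hs : HasSum (fun i => s i (w i)) w := lp.hasSum_single (p := 2) (by norm_num) w
  have hF : ∀ F' : Finset ι, Tendsto (fun i => ⟪∑ p ∈ F', s p (w p), y i⟫_ℂ) atTop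
      (𝓝 ⟪∑ p ∈ F', s p (w p), y0⟫_ℂ) := by
    intro F'
    simp only [sum_inner, hs']
    refine tendsto_finsetSum _ fun p _ => ?_
    exact (Filter.Tendsto.inner tendsto_const_nhds (hp p))
  have hU : TendstoUniformly
      (fun (F' : Finset ι) i => ⟪∑ p ∈ F', s p (w p), y i⟫_ℂ)
      (fun i => ⟪w, y i⟫_ℂ) atTop := by
    rw [Metric.tendstoUniformly_iff]
    intro ε hε
    have hC0 : 0 ≤ C := (norm_nonneg _).trans (hC 0)
    have h1 : ∀ᶠ F' : Finset ι in atTop, dist (∑ p ∈ F', s p (w p)) w < ε / (C + 1) :=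
      hs.eventually (Metric.ball_mem_nhds _ (by positivity))
    filter_upwards [h1] with F' hF1 i
    rw [dist_eq_norm, ← inner_sub_left]
    calc ‖⟪w - ∑ p ∈ F', s p (w p), y i⟫_ℂ‖
        ≤ ‖w - ∑ p ∈ F', s p (w p)‖ * ‖y i‖ := norm_inner_le_norm _ _
      _ ≤ ‖w - ∑ p ∈ F', s p (w p)‖ * C := by gcongr; exact hC i
      _ ≤ (ε / (C + 1)) * C := by
          gcongr
          rw [← dist_eq_norm, dist_comm]
          exact hF1.le
      _ < ε := by
          rw [div_mul_eq_mul_div, div_lt_iff₀ (by positivity)]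
          linarith
  exact hU.tendsto_of_eventually_tendsto (Eventually.of_forall hF)
    (Filter.Tendsto.inner hs tendsto_const_nhds)

section
variable (F)

/-- the shift -/
noncomputable def fU : Op (LF Idx F) := wp eU (fun _ => 1) (fun _ => by simp)
/-- the inverse shift -/
noncomputable def fV : Op (LF Idx F) := wp eU.symm (fun _ => 1) (fun _ => by simp)
/-- the sign operators -/
noncomputable def fX (i : ℕ) : Op (LF Idx F) :=
  wp (Equiv.refl _) (fun p => sg i p.2) (fun p => sg_norm i p.2)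
/-- the flip operators -/
noncomputable def fZ (i : ℕ) : Op (LF Idx F) := wp (eZ i) (fun _ => 1) (fun _ => by simp)

/-- the anticommuting-square-zero operators -/
noncomputable def fA (i : ℕ) : Op (LF Idx F) :=
  fU F * ((1 / 2 : ℂ) • (fX F i + fZ F i * fX F i))

/-- their adjoints -/
noncomputable def fB (i : ℕ) : Op (LF Idx F) :=
  ((1 / 2 : ℂ) • (fX F i + fX F i * fZ F i)) * fV F

end

theorem fU_apply (z : LF Idx F) (m : ℤ) (S : Finset ℕ) : fU F z (m, S) = z (m - 1, S) :=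
  one_smul _ _
theorem fV_apply (z : LF Idx F) (m : ℤ) (S : Finset ℕ) : fV F z (m, S) = z (m + 1, S) :=
  one_smul _ _
theorem fZ_apply (i : ℕ) (z : LF Idx F) (m : ℤ) (S : Finset ℕ) :
    fZ F i z (m, S) = z (m, S ∆ {i}) := one_smul _ _
theorem fX_apply (i : ℕ) (z : LF Idx F) (m : ℤ) (S : Finset ℕ) :
    fX F i z (m, S) = sg i S • z (m, S) := rfl

section star
variable [CompleteSpace F]

theorem star_fU : star (fU F) = fV F := by
  rw [fU, star_wp _ _ _ (by simp only [map_one, norm_one, Std.le_refl, implies_true])]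
  ext z ⟨m, S⟩
  simp only [map_one, wp_apply, one_smul, fV]

theorem star_fX (i : ℕ) : star (fX F i) = fX F i := by
  rw [fX, star_wp _ _ _ (by intro p; simpa only [Equiv.refl_symm, Equiv.refl_apply, RCLike.norm_conj] using sg_norm i p.2)]
  ext z ⟨m, S⟩
  simp only [Equiv.refl_symm, Equiv.refl_apply, sg_conj, wp_apply]

theorem star_fZ (i : ℕ) : star (fZ F i) = fZ F i := by
  rw [fZ, star_wp _ _ _ (by simp only [map_one, norm_one, Std.le_refl, implies_true])]
  ext z ⟨m, S⟩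
  simp only [eZ, Equiv.symm_mk, map_one, wp_apply, Equiv.coe_fn_mk, one_smul]

theorem star_fA (i : ℕ) : star (fA F i) = fB F i := by
  simp only [fA, one_div, smul_add, star_mul, star_add, star_smul, star_inv₀, star_ofNat, star_fX, star_fZ, star_fU, fB]

end star

theorem fA_apply (i : ℕ) (z : LF Idx F) (m : ℤ) (S : Finset ℕ) :
    fA F i z (m, S) = (1 / 2 : ℂ) • (sg i S • z (m - 1, S) - sg i S • z (m - 1, S ∆ {i})) := by
  have h : fA F i z = fU F ((1 / 2 : ℂ) • (fX F i z + fZ F i (fX F i z))) := by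
    simp only [fA, one_div, smul_add, mul_apply_eq_comp, add_apply, smul_apply, map_add, map_smul]
  rw [h, fU_apply, lp.coeFn_smul, Pi.smul_apply, lp.coeFn_add, Pi.add_apply, fZ_apply,
    fX_apply, fX_apply, sg_symmDiff_self]
  module

theorem fB_apply (i : ℕ) (z : LF Idx F) (m : ℤ) (S : Finset ℕ) :
    fB F i z (m, S) = (1 / 2 : ℂ) • (sg i S • z (m + 1, S) + sg i S • z (m + 1, S ∆ {i})) := by
  have h : fB F i z = (1 / 2 : ℂ) • (fX F i (fV F z) + fX F i (fZ F i (fV F z))) := by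
    simp only [fB, one_div, smul_add, mul_apply_eq_comp, add_apply, smul_apply]
  rw [h, lp.coeFn_smul, Pi.smul_apply, lp.coeFn_add, Pi.add_apply,
    fX_apply, fX_apply, fZ_apply, fV_apply, fV_apply]

theorem fA_sq (i : ℕ) : fA F i * fA F i = 0 := by
  ext z ⟨m, S⟩
  show fA F i (fA F i z) (m, S) = 0
  rw [fA_apply, fA_apply, fA_apply, sg_symmDiff_self, symmDiff_symmDiff_cancel_right]
  module

theorem fA_car (i : ℕ) : fA F i * fB F i + fB F i * fA F i = 1 := by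
  ext z ⟨m, S⟩
  show fA F i (fB F i z) (m, S) + fB F i (fA F i z) (m, S) = z (m, S)
  rw [fA_apply, fB_apply, fB_apply, fB_apply, fA_apply, fA_apply, sg_symmDiff_self,
    symmDiff_symmDiff_cancel_right]
  simp only [sub_add_cancel, add_sub_cancel_right]
  have h : ∀ (s : ℂ) (x y : F), (1 / 2 : ℂ) • (s • (1 / 2 : ℂ) • (s • x + s • y) -
      s • (1 / 2 : ℂ) • (-s • y + -s • x)) + (1 / 2 : ℂ) • (s • (1 / 2 : ℂ) • (s • x - s • y) +
      s • (1 / 2 : ℂ) • (-s • y - -s • x)) = (s * s) • x := by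
    intro s x y
    module
  rw [h, sg_mul_self, one_smul]

theorem fA_comm {i j : ℕ} (h : i ≠ j) : fA F i * fA F j = fA F j * fA F i := by
  ext z ⟨m, S⟩
  show fA F i (fA F j z) (m, S) = fA F j (fA F i z) (m, S)
  simp only [fA_apply, sg_symmDiff_of_ne h, sg_symmDiff_of_ne h.symm]
  rw [symmDiff_right_comm S {i} {j}]
  module

theorem fAB_comm {i j : ℕ} (h : i ≠ j) : fA F i * fB F j = fB F j * fA F i := by
  ext z ⟨m, S⟩
  show fA F i (fB F j z) (m, S) = fB F j (fA F i z) (m, S)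
  simp only [fA_apply, fB_apply, sg_symmDiff_of_ne h, sg_symmDiff_of_ne h.symm]
  rw [symmDiff_right_comm S {i} {j}]
  simp only [sub_add_cancel, add_sub_cancel_right]
  module

theorem fUA_comm (i : ℕ) : fU F * fA F i = fA F i * fU F := by
  ext z ⟨m, S⟩
  show fU F (fA F i z) (m, S) = fA F i (fU F z) (m, S)
  simp only [fA_apply, fU_apply]

theorem fUB_comm (i : ℕ) : fU F * fB F i = fB F i * fU F := by
  ext z ⟨m, S⟩
  show fU F (fB F i z) (m, S) = fB F i (fU F z) (m, S)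
  simp only [fB_apply, fU_apply, sub_add_cancel, add_sub_cancel_right]

theorem norm_fU (z : LF Idx F) : ‖fU F z‖ = ‖z‖ := by
  refine le_antisymm (norm_wp_le _ _ _ _) ?_
  have h : z = fV F (fU F z) := by
    ext ⟨m, S⟩
    rw [fV_apply, fU_apply, add_sub_cancel_right]
  calc ‖z‖ = ‖fV F (fU F z)‖ := by rw [← h]
    _ ≤ ‖fU F z‖ := norm_wp_le _ _ _ _

theorem norm_fA_apply (i : ℕ) (z : LF Idx F) : ‖fA F i z‖ ≤ ‖z‖ := by
  have h : fA F i z = fU F ((1 / 2 : ℂ) • (fX F i z + fZ F i (fX F i z))) := by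
    simp only [fA, one_div, smul_add, mul_apply_eq_comp, add_apply, smul_apply, map_add, map_smul]
  rw [h, norm_fU, norm_smul]
  have h1 : ‖fX F i z‖ ≤ ‖z‖ := norm_wp_le _ _ _ _
  have h2 : ‖fZ F i (fX F i z)‖ ≤ ‖z‖ := (norm_wp_le _ _ _ _).trans h1
  have h3 := norm_add_le (fX F i z) (fZ F i (fX F i z))
  have h4 : ‖(1 / 2 : ℂ)‖ = 1 / 2 := by norm_num
  rw [h4]
  linarith only [h1, h2, h3]

theorem lp_tendsto_cofinite' (z : LF ι F) : Tendsto (fun p => z p) cofinite (𝓝 0) := by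
  have h0 := lp.memℓp z
  rw [memℓp_gen_iff (by norm_num)] at h0
  have h1 := h0.tendsto_cofinite_zero
  have h2 : Tendsto (fun p => ‖z p‖) cofinite (𝓝 0) := by
    have h3 := h1.rpow_const (p := (1 / 2 : ℝ)) (Or.inr (by norm_num))
    have h4 : ((0 : ℝ) ^ (1 / 2 : ℝ)) = 0 := by
      rw [Real.zero_rpow]; norm_num
    rw [h4] at h3
    refine h3.congr fun p => ?_
    rw [← Real.rpow_mul (norm_nonneg _)]
    norm_num
  exact tendsto_zero_iff_norm_tendsto_zero.2 h2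

theorem fA_weak (w z : LF Idx F) :
    Tendsto (fun i => ⟪w, fA F i z⟫_ℂ) atTop (𝓝 ⟪w, (1 / 2 : ℂ) • fU F z⟫_ℂ) := by
  refine weak_conv' (C := ‖z‖) (fun i => norm_fA_apply i z) (fun p => ?_) w
  obtain ⟨m, S⟩ := p
  have h1 : ∀ᶠ i : ℕ in atTop, i ∉ S := by
    obtain ⟨N, hN⟩ := S.exists_nat_subset_range
    filter_upwards [eventually_ge_atTop N] with i hi h
    have := Finset.mem_range.1 (hN h)
    omega
  have h2 : Tendsto (fun i : ℕ => z (m - 1, S ∆ {i})) atTop (𝓝 0) := by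
    rw [← Nat.cofinite_eq_atTop]
    refine (lp_tendsto_cofinite' z).comp (Function.Injective.tendsto_cofinite ?_)
    intro i j hij
    have h3 := (Prod.ext_iff.1 hij).2
    have h4 := symmDiff_right_injective S h3
    exact Finset.singleton_injective h4
  have h3 : Tendsto (fun i : ℕ => (1 / 2 : ℂ) • (z (m - 1, S) - z (m - 1, S ∆ {i}))) atTop
      (𝓝 ((1 / 2 : ℂ) • (z (m - 1, S) - 0))) :=
    (tendsto_const_nhds.sub h2).const_smul _
  have h4 : ((1 / 2 : ℂ) • fU F z) (m, S) = (1 / 2 : ℂ) • (z (m - 1, S) - 0) := by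
    rw [lp.coeFn_smul, Pi.smul_apply, fU_apply, sub_zero]
  rw [h4]
  refine h3.congr' ?_
  filter_upwards [h1] with i hi
  rw [fA_apply, sg, if_neg hi, one_smul, one_smul]

/-- the bilateral shift has no eigenvector -/
theorem fU_eigen {z : LF Idx F} {μ : ℂ} (h : fU F z = μ • z) : z = 0 := by
  by_contra hz
  have h1 : ‖μ‖ = 1 := by
    have h2 := norm_fU z
    rw [h, norm_smul] at h2
    have h3 : ‖z‖ ≠ 0 := norm_ne_zero_iff.2 hz
    exact mul_right_cancel₀ h3 (by rw [h2, one_mul])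
  apply hz
  ext ⟨m, S⟩
  have h2 : ∀ m : ℤ, ‖z (m - 1, S)‖ = ‖z (m, S)‖ := by
    intro m
    rw [← fU_apply, h, lp.coeFn_smul, Pi.smul_apply, norm_smul, h1, one_mul]
  have h3 : ∀ k : ℕ, ‖z (m - k, S)‖ = ‖z (m, S)‖ := by
    intro k
    induction k with
    | zero => simp only [Int.cast_ofNat_Int, sub_zero]
    | succ k ih =>
      rw [← ih, ← h2 (m - k)]
      push_cast
      rw [sub_sub]
  have h4 : Tendsto (fun k : ℕ => z (m - k, S)) atTop (𝓝 0) := by
    rw [← Nat.cofinite_eq_atTop]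
    refine (lp_tendsto_cofinite' z).comp
      (Function.Injective.tendsto_cofinite (f := fun k : ℕ => ((m - k, S) : Idx)) ?_)
    intro i j hij
    have h3 := (Prod.ext_iff.1 hij).1
    simp at h3
    exact h3
  have h5 := h4.norm
  simp only [h3, norm_zero] at h5
  have h6 : ‖z (m, S)‖ = 0 := tendsto_nhds_unique tendsto_const_nhds h5
  rw [norm_eq_zero.1 h6]
  rfl

theorem fA_noV [CompleteSpace F] (k' : Op (LF Idx F))
    (hk : k' ∈ StarSubalgebra.centralizer ℂ {fU F})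
    (h : ∀ i, ∃ c : ℂ, ∀ z w : LF Idx F, k' z = 0 → k' w = 0 →
      ⟪w, fA F i z⟫_ℂ = c * ⟪w, z⟫_ℂ) (z : LF Idx F) (hz : k' z = 0) : z = 0 := by
  by_contra hz0
  choose c hc using h
  have hU : ∀ w, k' w = 0 → k' (fU F w) = 0 := by
    intro w hw
    have h1 := ((StarSubalgebra.mem_centralizer_iff ℂ).1 hk (fU F) rfl).1
    have h2 : fU F (k' w) = k' (fU F w) := congrArg (fun T : Op (LF Idx F) => T w) h1
    rw [← h2, hw, map_zero]
  have hzz : ⟪z, z⟫_ℂ ≠ 0 := inner_self_ne_zero.2 hz0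
  have h1 : Tendsto c atTop (𝓝 (⟪z, (1 / 2 : ℂ) • fU F z⟫_ℂ / ⟪z, z⟫_ℂ)) := by
    have h2 := (fA_weak z z).div_const ⟪z, z⟫_ℂ
    refine h2.congr fun i => ?_
    rw [hc i z z hz hz, mul_div_assoc, div_self hzz, mul_one]
  set s := ⟪z, (1 / 2 : ℂ) • fU F z⟫_ℂ / ⟪z, z⟫_ℂ with hs
  have h2 : ∀ w, k' w = 0 → ⟪w, (1 / 2 : ℂ) • fU F z⟫_ℂ = s * ⟪w, z⟫_ℂ := by
    intro w hw
    refine tendsto_nhds_unique (fA_weak w z) ?_
    refine (h1.mul_const ⟪w, z⟫_ℂ).congr fun i => ?_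
    rw [hc i z w hz hw]
  have h3 : (1 / 2 : ℂ) • fU F z - s • z = 0 := by
    set w := (1 / 2 : ℂ) • fU F z - s • z with hw
    have h4 : k' w = 0 := by
      rw [hw, map_sub, map_smul, map_smul, hU z hz, hz]
      simp
    have h5 := h2 w h4
    have h6 : ⟪w, w⟫_ℂ = 0 := by
      conv_lhs => rw [hw]
      rw [← hw, inner_sub_right, h5, inner_smul_right, sub_self]
    exact inner_self_eq_zero.1 h6
  refine hz0 (fU_eigen (μ := 2 * s) ?_)
  have h4 := sub_eq_zero.1 h3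
  rw [mul_smul, ← h4, smul_smul]
  norm_num

theorem rel_f [CompleteSpace F] : Rel (fA F) (fU F) := by
  refine ⟨fA_sq, fun i => ?_, fun i j h => fA_comm h, fun i j h => ?_, fUA_comm, fun i => ?_⟩
  · rw [star_fA]; exact fA_car i
  · rw [star_fA]; exact fAB_comm h
  · rw [star_fA]; exact fUB_comm i

section comm
variable [CompleteSpace F] (x : Op F)

theorem amp_wp_comm {ι : Type*} (e : ι ≃ ι) (σ : ι → ℂ) (hσ : ∀ i, ‖σ i‖ ≤ 1) :
    amp ι x * wp e σ hσ = wp e σ hσ * amp ι x := by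
  ext z i
  show x (σ i • z (e i)) = σ i • x (z (e i))
  rw [map_smul]

theorem amp_fU_comm : amp Idx x * fU F = fU F * amp Idx x := amp_wp_comm x _ _ _

theorem amp_fV_comm : amp Idx x * fV F = fV F * amp Idx x := amp_wp_comm x _ _ _

theorem amp_fA_comm (i : ℕ) : amp Idx x * fA F i = fA F i * amp Idx x := by
  have h1 : Commute (amp Idx x) (fX F i) := amp_wp_comm x _ _ _
  have h2 : Commute (amp Idx x) (fZ F i) := amp_wp_comm x _ _ _
  have h3 : Commute (amp Idx x) (fU F) := amp_wp_comm x _ _ _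
  exact h3.mul_right ((h1.add_right (h2.mul_right h1)).smul_right _)

end comm

end Vale.Agent.P070.H443
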