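import Vale.Agent.P070.Bdl.B2

/-! Direct sums of representations, and the operators `x ↦ e ⊗ x` on a self-similar Hilbert
space. -/

namespace Vale.Agent.P070.H443

open scoped InnerProductSpace ENNReal ComplexConjugate
open Filter Topology

section dsum

variable {ι : Type*} {L : ι → Type*} [∀ i, NormedAddCommGroup (L i)]
  [∀ i, InnerProductSpace ℂ (L i)]

theorem memlp_map (T : ∀ i, Op (L i)) {C : ℝ} (hC : 0 ≤ C) (hT : ∀ i, ‖T i‖ ≤ C) (z : lp L 2) :
    Memℓp (fun i => T i (z i)) 2 ∧ Summable (fun i => ‖T i (z i)‖ ^ (2 : ℝ≥0∞).toReal) ∧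
      (∑' i, ‖T i (z i)‖ ^ (2 : ℝ≥0∞).toReal) ≤ (C * ‖z‖) ^ (2 : ℝ≥0∞).toReal := by
  have h0 := lp.memℓp z
  rw [memℓp_gen_iff (by norm_num)] at h0
  have hle : ∀ i, ‖T i (z i)‖ ^ (2 : ℝ≥0∞).toReal ≤
      C ^ (2 : ℝ≥0∞).toReal * ‖z i‖ ^ (2 : ℝ≥0∞).toReal := by
    intro i
    rw [← Real.mul_rpow hC (norm_nonneg _)]
    refine Real.rpow_le_rpow (norm_nonneg _) ?_ (by norm_num)
    exact ((T i).le_opNorm _).trans (mul_le_mul_of_nonneg_right (hT i) (norm_nonneg _))
  have hs := Summable.of_nonneg_of_le (fun i => by positivity) hle (h0.mul_left _)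
  refine ⟨(memℓp_gen_iff (by norm_num)).2 hs, hs, ?_⟩
  refine (hs.tsum_le_tsum hle (h0.mul_left _)).trans ?_
  rw [tsum_mul_left, Real.mul_rpow hC (norm_nonneg _), lp.norm_rpow_eq_tsum (by norm_num) z]

/-- The operator acting by `T i` on the summand `L i`. -/
noncomputable def lpMap (T : ∀ i, Op (L i)) (C : ℝ) (hC : 0 ≤ C) (hT : ∀ i, ‖T i‖ ≤ C) :
    Op (lp L 2) :=
  LinearMap.mkContinuous
    { toFun := fun z => (⟨fun i => T i (z i), (memlp_map T hC hT z).1⟩ : lp L 2)
      map_add' := by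
        intro x y
        ext i
        exact map_add (T i) _ _
      map_smul' := by
        intro c x
        ext i
        exact map_smul (T i) _ _ } C (by
      intro z
      refine lp.norm_le_of_tsum_le (by norm_num) (by positivity) ?_
      exact (memlp_map T hC hT z).2.2)

theorem lpMap_apply (T : ∀ i, Op (L i)) (C : ℝ) (hC : 0 ≤ C) (hT : ∀ i, ‖T i‖ ≤ C) (z : lp L 2)
    (i : ι) : lpMap T C hC hT z i = T i (z i) := rfl

variable [∀ i, CompleteSpace (L i)] {D : Type*} [CStarAlgebra D]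

/-- The direct sum of a family of representations. -/
noncomputable def dsum (σ : ∀ i, D →⋆ₐ[ℂ] Op (L i)) : D →⋆ₐ[ℂ] Op (lp L 2) where
  toFun d := lpMap (fun i => σ i d) ‖d‖ (norm_nonneg _)
    (fun i => NonUnitalStarAlgHom.norm_apply_le (σ i) d)
  map_one' := by
    ext z i
    rw [lpMap_apply, map_one]
    rfl
  map_mul' x y := by
    ext z i
    show σ i (x * y) (z i) = σ i x (σ i y (z i))
    rw [map_mul]
    rfl
  map_zero' := by
    ext z i
    rw [lpMap_apply, map_zero]
    rfl
  map_add' x y := by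
    ext z i
    rw [lpMap_apply, map_add]
    rfl
  commutes' c := by
    ext z i
    rw [lpMap_apply, AlgHomClass.commutes, Algebra.algebraMap_eq_smul_one,
      Algebra.algebraMap_eq_smul_one]
    rfl
  map_star' x := by
    rw [ContinuousLinearMap.star_eq_adjoint, ContinuousLinearMap.eq_adjoint_iff]
    intro y z
    rw [lp.inner_eq_tsum, lp.inner_eq_tsum]
    refine tsum_congr fun i => ?_
    rw [lpMap_apply, lpMap_apply, map_star, ContinuousLinearMap.star_eq_adjoint,
      ContinuousLinearMap.adjoint_inner_left]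

theorem dsum_apply (σ : ∀ i, D →⋆ₐ[ℂ] Op (L i)) (d : D) (z : lp L 2) (i : ι) :
    dsum σ d z i = σ i d (z i) := rfl

end dsum

section amp

variable (ι : Type*) {F : Type*} [NormedAddCommGroup F] [InnerProductSpace ℂ F] [CompleteSpace F]

/-- Amplification. -/
noncomputable def amp : Op F →⋆ₐ[ℂ] Op (lp (fun _ : ι => F) 2) :=
  dsum (fun _ : ι => StarAlgHom.id ℂ (Op F))

variable {ι}

theorem amp_apply (d : Op F) (z : lp (fun _ : ι => F) 2) (i : ι) : amp ι d z i = d (z i) := rfl

end amp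

section ins

variable {ι : Type*} {F : Type*} [NormedAddCommGroup F] [InnerProductSpace ℂ F]
  {E : Type*} [NormedAddCommGroup E] [InnerProductSpace ℂ E]
  (b : HilbertBasis ι ℂ F)

theorem memlp_ins (e : E) (x : F) : Memℓp (fun j => (b.repr x j) • e) 2 ∧
    (∑' i, ‖(b.repr x i) • e‖ ^ (2 : ℝ≥0∞).toReal) = (‖e‖ * ‖x‖) ^ (2 : ℝ≥0∞).toReal := by
  have h0 := lp.memℓp (b.repr x)
  rw [memℓp_gen_iff (by norm_num)] at h0
  have he : ∀ j, ‖(b.repr x j) • e‖ ^ (2 : ℝ≥0∞).toReal =
      ‖e‖ ^ (2 : ℝ≥0∞).toReal * ‖b.repr x j‖ ^ (2 : ℝ≥0∞).toReal := by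
    intro j
    rw [norm_smul, mul_comm, Real.mul_rpow (norm_nonneg _) (norm_nonneg _)]
  constructor
  · rw [memℓp_gen_iff (by norm_num)]
    simp only [he]
    exact h0.mul_left _
  · simp only [he]
    rw [tsum_mul_left, Real.mul_rpow (norm_nonneg _) (norm_nonneg _), ← b.repr.norm_map x,
      lp.norm_rpow_eq_tsum (by norm_num) (b.repr x)]

/-- `x ↦ e ⊗ x`. -/
noncomputable def ins (e : E) : F →L[ℂ] lp (fun _ : ι => E) 2 :=
  LinearMap.mkContinuous
    { toFun := fun x => (⟨fun j => (b.repr x j) • e, (memlp_ins b e x).1⟩ :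
        lp (fun _ : ι => E) 2)
      map_add' := by
        intro x y
        ext i
        show (b.repr (x + y) i) • e = (b.repr x i) • e + (b.repr y i) • e
        rw [map_add, lp.coeFn_add, Pi.add_apply, add_smul]
      map_smul' := by
        intro c x
        ext i
        show (b.repr (c • x) i) • e = c • (b.repr x i) • e
        rw [map_smul, lp.coeFn_smul, Pi.smul_apply, smul_eq_mul, mul_smul] } ‖e‖ (by
      intro x
      refine lp.norm_le_of_tsum_le (by norm_num) (by positivity) ?_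
      exact (memlp_ins b e x).2.le)

theorem ins_apply (e : E) (x : F) (i : ι) : ins b e x i = (b.repr x i) • e := rfl

theorem ins_inner (f e : E) (x y : F) : ⟪ins b f x, ins b e y⟫_ℂ = ⟪f, e⟫_ℂ * ⟪x, y⟫_ℂ := by
  rw [← b.repr.inner_map_map x y, lp.inner_eq_tsum, lp.inner_eq_tsum, ← tsum_mul_left]
  refine tsum_congr fun i => ?_
  rw [ins_apply, ins_apply, inner_smul_left, inner_smul_right, RCLike.inner_apply]
  ring

theorem ins_add (e f : E) : ins b (e + f) = ins b e + ins b f := by
  ext x i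
  show (b.repr x i) • (e + f) = (b.repr x i) • e + (b.repr x i) • f
  rw [smul_add]

theorem ins_smul (c : ℂ) (e : E) : ins b (c • e) = c • ins b e := by
  ext x i
  show (b.repr x i) • (c • e) = c • ((b.repr x i) • e)
  rw [smul_comm]

theorem amp_ins [CompleteSpace E] (d : Op E) (e : E) (x : F) :
    amp ι d (ins b e x) = ins b (d e) x := by
  ext i
  rw [amp_apply, ins_apply, ins_apply, map_smul]

end ins

/-- A countable infinite sum of copies of a nonzero separable Hilbert space has a basis indexed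
by `ℕ`. -/
theorem exists_basis_lp (κ : Type*) [Countable κ] [Infinite κ] {F : Type*} [NormedAddCommGroup F] [InnerProductSpace ℂ F]
    [CompleteSpace F] {w : Type*} [Countable w] [Nonempty w] (b : HilbertBasis w ℂ F) :
    Nonempty (HilbertBasis ℕ ℂ (lp (fun _ : κ => F) 2)) := by
  classical
  obtain ⟨hd⟩ := nonempty_denumerable (κ × w)
  let e : ℕ ≃ κ × w := (Denumerable.eqv (κ × w)).symm
  let s : κ → F → lp (fun _ : κ => F) 2 := fun n x => lp.single 2 n x
  have hs : ∀ n x (f : lp (fun _ : κ => F) 2), ⟪s n x, f⟫_ℂ = ⟪x, f n⟫_ℂ := fun n x f =>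
    lp.inner_single_left n x f
  have hs2 : ∀ n x m, s n x m = if m = n then x else 0 := by
    intro n x m
    show (lp.single 2 n x : lp (fun _ : κ => F) 2) m = _
    rw [lp.single_apply, Pi.single_apply]
  let v : ℕ → lp (fun _ : κ => F) 2 := fun n => s (e n).1 (b (e n).2)
  have hv : Orthonormal ℂ v := by
    rw [orthonormal_iff_ite]
    intro i j
    show ⟪s (e i).1 (b (e i).2), s (e j).1 (b (e j).2)⟫_ℂ = _
    rw [hs, hs2]
    by_cases h : (e i).1 = (e j).1
    · rw [if_pos h, orthonormal_iff_ite.1 b.orthonormal]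
      by_cases h2 : (e i).2 = (e j).2
      · have : i = j := e.injective (Prod.ext h h2)
        rw [if_pos h2, if_pos this]
      · rw [if_neg h2, if_neg (fun hij => h2 (by rw [hij]))]
    · rw [if_neg h, inner_zero_right, if_neg (fun hij => h (by rw [hij]))]
  refine ⟨HilbertBasis.mkOfOrthogonalEqBot hv ?_⟩
  rw [Submodule.eq_bot_iff]
  intro z hz
  rw [Submodule.mem_orthogonal] at hz
  have h1 : ∀ n k, ⟪b k, z n⟫_ℂ = 0 := by
    intro n k
    have h2 := hz (v (e.symm (n, k))) (Submodule.subset_span ⟨_, rfl⟩)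
    have h3 : v (e.symm (n, k)) = s n (b k) := by
      show s (e (e.symm (n, k))).1 (b (e (e.symm (n, k))).2) = _
      rw [Equiv.apply_symm_apply]
    rw [h3, hs] at h2
    exact h2
  ext n
  have h4 : b.repr (z n) = 0 := by
    ext k
    rw [b.repr_apply_apply, h1]
    rfl
  have h5 := (map_eq_zero_iff b.repr b.repr.injective).1 h4
  rw [h5]
  rfl

end Vale.Agent.P070.H443
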